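import Vale.Agent.P227.Zono.Defs
import Vale.Agent.P219.BM

/-!
# P227: sums with segments
-/

namespace Vale.Agent.P227.Zono

open MeasureTheory Set Filter Topology
open scoped Pointwise ENNReal

noncomputable section

variable {n m : ℕ}

/-- The volume gained by adding the segment `[-v, v]`, halved. -/
def area (v : Fin n → ℝ) (L : Set (Fin n → ℝ)) : ℝ :=
  ((volume (L + segment ℝ (-v) v)).toReal - (volume L).toReal) / 2

theorem isCompact_seg (v : Fin n → ℝ) : IsCompact (segment ℝ (-v) v) := by
  rw [segment_eq_image]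
  exact isCompact_Icc.image (by fun_prop)

theorem mem_seg {v x : Fin n → ℝ} : x ∈ segment ℝ (-v) v ↔ ∃ t : ℝ, |t| ≤ 1 ∧ x = t • v := by
  rw [segment_eq_image]
  constructor
  · rintro ⟨θ, hθ, rfl⟩
    exact ⟨2 * θ - 1, abs_le.2 ⟨by linarith [hθ.1], by linarith [hθ.2]⟩, by module⟩
  · rintro ⟨t, ht, rfl⟩
    refine ⟨(t + 1) / 2, ?_, by module⟩
    constructor <;> linarith [(abs_le.1 ht).1, (abs_le.1 ht).2]

/-- Fubini along the coordinate `0`. -/
theorem volume_fibres {A : Set (Fin (m + 1) → ℝ)} (hA : MeasurableSet A) :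
    volume A = ∫⁻ y : Fin m → ℝ, volume ((fun a : ℝ => Fin.cons a y) ⁻¹' A) := by
  have hp := (volume_preserving_piFinSuccAbove (fun _ : Fin (m + 1) => ℝ) 0).symm
  rw [← hp.measure_preimage hA.nullMeasurableSet, Measure.volume_eq_prod,
    Measure.prod_apply_symm (hp.measurable hA)]
  refine lintegral_congr fun y => congrArg volume ?_
  ext a
  simp [MeasurableEquiv.piFinSuccAbove_symm_apply, Fin.consEquiv]

theorem volume_add_axis {A : Set (Fin (m + 1) → ℝ)} (hc : IsCompact A) (hA : Convex ℝ A) :
    volume (A + segment ℝ (-Pi.single (0 : Fin (m + 1)) (1 : ℝ)) (Pi.single 0 1))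
      = volume A + 2 * volume (Fin.tail '' A) := by
  set B := A + segment ℝ (-Pi.single (0 : Fin (m + 1)) (1 : ℝ)) (Pi.single 0 1) with hB
  have hct : Continuous (Fin.tail : (Fin (m + 1) → ℝ) → Fin m → ℝ) := by unfold Fin.tail; fun_prop
  have hP : MeasurableSet (Fin.tail '' A) := (hc.image hct).measurableSet
  have hmB : ∀ a y, (Fin.cons a y : Fin (m + 1) → ℝ) ∈ B ↔
      ∃ b, (Fin.cons b y : Fin (m + 1) → ℝ) ∈ A ∧ |a - b| ≤ 1 := by
    intro a y
    constructor
    · rintro ⟨x, hx, s, hs, he⟩
      obtain ⟨t, ht, rfl⟩ := mem_seg.1 hs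
      refine ⟨a - t, ?_, by simpa using ht⟩
      have : (Fin.cons (a - t) y : Fin (m + 1) → ℝ) = x := by
        funext k
        refine Fin.cases ?_ (fun j => ?_) k
        · have hk := congrFun he 0
          simp at hk ⊢
          linarith
        · have hk := congrFun he j.succ
          simp [Fin.succ_ne_zero] at hk ⊢
          linarith
      rwa [this]
    · rintro ⟨b, hb, hab⟩
      refine ⟨_, hb, _, mem_seg.2 ⟨a - b, hab, rfl⟩, ?_⟩
      funext k
      refine Fin.cases ?_ (fun j => ?_) k <;> simp [Fin.succ_ne_zero]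
  rw [volume_fibres (hc.add (isCompact_seg _)).measurableSet, volume_fibres hc.measurableSet]
  have key : ∀ y, volume ((fun a : ℝ => (Fin.cons a y : Fin (m + 1) → ℝ)) ⁻¹' B)
      = volume ((fun a : ℝ => (Fin.cons a y : Fin (m + 1) → ℝ)) ⁻¹' A)
        + (Fin.tail '' A).indicator (fun _ => 2) y := by
    intro y
    set J := (fun a : ℝ => (Fin.cons a y : Fin (m + 1) → ℝ)) ⁻¹' A
    by_cases hy : y ∈ Fin.tail '' A
    · obtain ⟨x, hx, rfl⟩ := hy
      have hJne : J.Nonempty := ⟨x 0, by simpa [J] using hx⟩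
      have hJc : IsCompact J := by
        refine (hc.image (continuous_apply 0)).of_isClosed_subset
          (hc.isClosed.preimage (by fun_prop)) fun a ha => ⟨_, ha, by simp⟩
      have hJconv : Convex ℝ J := by
        intro a ha b hb p q hp hq hpq
        have := hA ha hb hp hq hpq
        simp only [J, mem_preimage]
        convert this using 1
        funext k
        refine Fin.cases ?_ (fun j => ?_) k <;> simp [← add_mul, hpq]
      obtain ⟨l, hl, hlm⟩ := hJc.exists_isLeast hJne
      obtain ⟨r, hr, hrm⟩ := hJc.exists_isGreatest hJne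
      have eJ : J = Icc l r := Subset.antisymm (fun a ha => ⟨hlm ha, hrm ha⟩)
        (fun a ha => hJconv.ordConnected.out hl hr ha)
      have eB : (fun a : ℝ => (Fin.cons a (Fin.tail x) : Fin (m + 1) → ℝ)) ⁻¹' B
          = Icc (l - 1) (r + 1) := by
        ext a
        simp only [mem_preimage, hmB]
        constructor
        · rintro ⟨b, hb, hab⟩
          have hb' : b ∈ Icc l r := eJ ▸ hb
          constructor <;> linarith [hb'.1, hb'.2, (abs_le.1 hab).1, (abs_le.1 hab).2]
        · intro ha
          refine ⟨max l (min a r), (eJ ▸ ⟨le_max_left _ _, max_le (hrm hl) (min_le_right _ _)⟩ :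
            max l (min a r) ∈ J), abs_le.2 ⟨?_, ?_⟩⟩
          · rcases max_cases l (min a r) with h | h <;> rcases min_cases a r with h' | h' <;>
              linarith [ha.1, ha.2]
          · rcases max_cases l (min a r) with h | h <;> rcases min_cases a r with h' | h' <;>
              linarith [ha.1, ha.2]
      have hlr : l ≤ r := hrm hl
      rw [indicator_of_mem (mem_image_of_mem _ hx), eB, eJ, Real.volume_Icc, Real.volume_Icc,
        show r + 1 - (l - 1) = (r - l) + 2 by ring, ENNReal.ofReal_add (by linarith) (by norm_num),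
        ENNReal.ofReal_ofNat]
    · have e1 : J = ∅ := eq_empty_of_forall_notMem fun a ha => hy ⟨_, ha, Fin.tail_cons _ _⟩
      have e2 : (fun a : ℝ => (Fin.cons a y : Fin (m + 1) → ℝ)) ⁻¹' B = ∅ :=
        eq_empty_of_forall_notMem fun a ha => by
          obtain ⟨b, hb, -⟩ := (hmB a y).1 ha
          exact hy ⟨_, hb, Fin.tail_cons _ _⟩
      rw [indicator_of_notMem hy, e1, e2, measure_empty, add_zero]
  rw [lintegral_congr key, lintegral_add_right _ (measurable_const.indicator hP), lintegral_indicator_const hP]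

/-- A linear map moving a nonzero vector to the first coordinate vector. -/
theorem exists_toAxis {v : Fin (m + 1) → ℝ} (hv : v ≠ 0) :
    ∃ T : (Fin (m + 1) → ℝ) →ₗ[ℝ] Fin (m + 1) → ℝ,
      T v = Pi.single 0 1 ∧ LinearMap.det T ≠ 0 := by
  have hli : LinearIndepOn ℝ id ({v} : Set (Fin (m + 1) → ℝ)) := LinearIndepOn.singleton (id hv)
  set bas := Module.Basis.extend hli
  have hfin : Fintype (hli.extend (subset_univ _)) := FiniteDimensional.fintypeBasisIndex bas
  have hcard : Fintype.card (hli.extend (subset_univ _)) = m + 1 := by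
    rw [← Module.finrank_eq_card_basis bas, Module.finrank_fin_fun]
  let k : hli.extend (subset_univ _) := ⟨v, hli.subset_extend _ rfl⟩
  let e₀ := Fintype.equivFinOfCardEq hcard
  let e := e₀.trans (Equiv.swap (e₀ k) 0)
  let T := (bas.reindex e).equiv (Pi.basisFun ℝ (Fin (m + 1))) (Equiv.refl _)
  refine ⟨T, ?_, (LinearEquiv.isUnit_det' T).ne_zero⟩
  have hk : (bas.reindex e) 0 = v := by
    rw [Module.Basis.reindex_apply, show e.symm 0 = k from (Equiv.symm_apply_eq e).2 (by simp [e]),
      Module.Basis.extend_apply_self]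
  rw [← hk]
  simp only [T, LinearEquiv.coe_coe]
  rw [Module.Basis.equiv_apply, Equiv.refl_apply, Pi.basisFun_apply]

variable {T : (Fin (m + 1) → ℝ) →ₗ[ℝ] Fin (m + 1) → ℝ} {v : Fin (m + 1) → ℝ}
  {L L' : Set (Fin (m + 1) → ℝ)}

/-- The area of a projection. -/
theorem area_eq (hT : T v = Pi.single 0 1) (hdet : LinearMap.det T ≠ 0) (hc : IsCompact L)
    (hL : Convex ℝ L) :
    area v L = (volume (Fin.tail '' (T '' L))).toReal / |LinearMap.det T| := by
  have hseg : T '' (L + segment ℝ (-v) v)
      = T '' L + segment ℝ (-Pi.single (0 : Fin (m + 1)) (1 : ℝ)) (Pi.single 0 1) := by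
    rw [Set.image_add, ← hT, ← map_neg]
    congr 1
    exact image_segment _ T.toAffineMap _ _
  have hcT : IsCompact (T '' L) := hc.image T.continuous_of_finiteDimensional
  have h := volume_add_axis hcT (hL.linear_image T)
  rw [← hseg, Measure.addHaar_image_linearMap, Measure.addHaar_image_linearMap] at h
  have h' := congrArg ENNReal.toReal h
  have hct : Continuous (Fin.tail : (Fin (m + 1) → ℝ) → Fin m → ℝ) := by unfold Fin.tail; fun_prop
  rw [ENNReal.toReal_mul, ENNReal.toReal_add
    (ENNReal.mul_ne_top ENNReal.ofReal_ne_top hc.measure_lt_top.ne)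
    (ENNReal.mul_ne_top ENNReal.ofNat_ne_top (hcT.image hct).measure_lt_top.ne),
    ENNReal.toReal_mul, ENNReal.toReal_mul, ENNReal.toReal_ofNat,
    ENNReal.toReal_ofReal (abs_nonneg _)] at h'
  rw [area, eq_div_iff (abs_ne_zero.2 hdet)]
  linarith

theorem area_zero (L : Set (Fin n → ℝ)) : area 0 L = 0 := by
  simp [area, segment_same]

theorem area_smul (hc : IsCompact L) (hL : Convex ℝ L) {r : ℝ} (hr : 0 ≤ r) :
    area (r • v) L = r * area v L := by
  rcases eq_or_ne v 0 with rfl | hv
  · simp [area_zero]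
  rcases eq_or_lt_of_le hr with rfl | hr
  · simp [area_zero]
  obtain ⟨T, hT, hdet⟩ := exists_toAxis hv
  -- rescale the first coordinate
  set D : (Fin (m + 1) → ℝ) →ₗ[ℝ] Fin (m + 1) → ℝ :=
    Matrix.toLin' (Matrix.diagonal (Fin.cons r⁻¹ (fun _ => (1 : ℝ))))
  have hD : ∀ x, D x = Fin.cons (r⁻¹ * x 0) (Fin.tail x) := fun x => by
    funext k
    simp only [D, Matrix.toLin'_apply, Matrix.mulVec_diagonal]
    refine Fin.cases ?_ (fun j => ?_) k <;> simp [Fin.tail]
  have hdetD : LinearMap.det D = r⁻¹ := by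
    simp [D, LinearMap.det_toLin', Fin.prod_univ_succ]
  have hT' : (D ∘ₗ T) (r • v) = Pi.single 0 1 := by
    rw [LinearMap.comp_apply, map_smul, hT, hD]
    funext k
    refine Fin.cases ?_ (fun j => ?_) k <;> simp [Fin.tail, Fin.succ_ne_zero, hr.ne']
  have hd : LinearMap.det (D ∘ₗ T) = r⁻¹ * LinearMap.det T := by rw [LinearMap.det_comp, hdetD]
  rw [area_eq hT' (by rw [hd]; positivity) hc hL, area_eq hT hdet hc hL, hd, abs_mul,
    abs_inv, abs_of_pos hr]
  have e : Fin.tail '' ((D ∘ₗ T) '' L) = Fin.tail '' (T '' L) := by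
    simp only [image_image, LinearMap.comp_apply, hD, Fin.tail_cons]
  rw [e]
  field_simp

theorem area_mono (hv : v ≠ 0) (hc : IsCompact L) (hL : Convex ℝ L) (hc' : IsCompact L')
    (hL' : Convex ℝ L') (h : L ⊆ L') : area v L ≤ area v L' := by
  obtain ⟨T, hT, hdet⟩ := exists_toAxis hv
  rw [area_eq hT hdet hc hL, area_eq hT hdet hc' hL']
  have hct : Continuous (Fin.tail : (Fin (m + 1) → ℝ) → Fin m → ℝ) := by unfold Fin.tail; fun_prop
  gcongr
  exact ((hc'.image T.continuous_of_finiteDimensional).image hct).measure_lt_top.ne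

theorem area_dilate (hc : IsCompact L) (hL : Convex ℝ L) {r : ℝ} (hr : 0 ≤ r) :
    area v (r • L) = r ^ m * area v L := by
  rcases eq_or_ne v 0 with rfl | hv
  · simp [area_zero]
  obtain ⟨T, hT, hdet⟩ := exists_toAxis hv
  rw [area_eq hT hdet (hc.smul r) (hL.smul r), area_eq hT hdet hc hL, image_smul_set]
  have e : Fin.tail '' (r • (T '' L)) = r • (Fin.tail '' (T '' L)) := by
    simp only [← image_smul, image_image]
    rfl
  rw [e, Measure.addHaar_smul, Module.finrank_fin_fun, ENNReal.toReal_mul,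
    ENNReal.toReal_ofReal (abs_nonneg _), abs_of_nonneg (pow_nonneg hr m)]
  ring

variable {ι : Type*} [Fintype ι]

theorem zonotope_compact (v : ι → Fin n → ℝ) : IsCompact (zonotope v) := by
  refine IsCompact.image ?_ (by fun_prop)
  have : {t : ι → ℝ | ∀ i, |t i| ≤ 1} = univ.pi fun _ => Icc (-1) 1 := by
    ext t; simp [abs_le, Pi.le_def, forall_and]
  rw [this]
  exact isCompact_univ_pi fun _ => isCompact_Icc

theorem zonotope_convex (v : ι → Fin n → ℝ) : Convex ℝ (zonotope v) := by
  rintro x ⟨s, hs, rfl⟩ y ⟨t, ht, rfl⟩ a b ha hb hab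
  refine ⟨fun i => a * s i + b * t i, fun i => ?_, ?_⟩
  · refine (abs_add_le _ _).trans ?_
    rw [abs_mul, abs_mul, abs_of_nonneg ha, abs_of_nonneg hb]
    nlinarith [hs i, ht i, abs_nonneg (s i), abs_nonneg (t i)]
  · simp [Finset.smul_sum, smul_smul, add_smul, Finset.sum_add_distrib]

theorem zero_mem_zonotope (v : ι → Fin n → ℝ) : (0 : Fin n → ℝ) ∈ zonotope v :=
  ⟨0, by simp, by simp⟩

theorem zonotope_eq_sum (v : ι → Fin n → ℝ) : zonotope v = ∑ i, segment ℝ (-v i) (v i) := by
  ext x
  rw [Set.mem_finset_sum]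
  constructor
  · rintro ⟨t, ht, rfl⟩
    exact ⟨fun i => t i • v i, fun {i} _ => mem_seg.2 ⟨t i, ht i, rfl⟩, rfl⟩
  · rintro ⟨g, hg, rfl⟩
    choose t ht he using fun i => mem_seg.1 (hg (Finset.mem_univ i))
    exact ⟨t, ht, Finset.sum_congr rfl fun i _ => (he i).symm⟩

theorem zonotope_smul {t : ℝ} (ht : 0 ≤ t) (v : ι → Fin n → ℝ) :
    zonotope (fun i => t • v i) = t • zonotope v := by
  ext x
  constructor
  · rintro ⟨s, hs, rfl⟩
    exact ⟨_, ⟨s, hs, rfl⟩, by simp only [Finset.smul_sum, smul_comm t]⟩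
  · rintro ⟨-, ⟨s, hs, rfl⟩, rfl⟩
    exact ⟨s, hs, by simp only [Finset.smul_sum, smul_comm t]⟩

variable {v : ι → Fin (m + 1) → ℝ}

theorem sum_seg_compact (hc : IsCompact L) (hL : Convex ℝ L) (s : Finset ι) :
    IsCompact (L + ∑ i ∈ s, segment ℝ (-v i) (v i)) ∧
      Convex ℝ (L + ∑ i ∈ s, segment ℝ (-v i) (v i)) := by
  induction s using Finset.cons_induction with
  | empty => simpa using And.intro hc hL
  | cons a s ha ih =>
    rw [Finset.sum_cons, add_left_comm]
    exact ⟨(isCompact_seg _).add ih.1, (convex_segment _ _).add ih.2⟩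

theorem sum_area_le (hc : IsCompact L) (hL : Convex ℝ L) :
    (volume L).toReal + 2 * ∑ i, area (v i) L ≤ (volume (L + zonotope v)).toReal ∧
    (volume (L + zonotope v)).toReal ≤
      (volume L).toReal + 2 * ∑ i, area (v i) (L + zonotope v) := by
  classical
  set P := fun s : Finset ι => L + ∑ i ∈ s, segment ℝ (-v i) (v i)
  have hP : ∀ s, IsCompact (P s) ∧ Convex ℝ (P s) := fun s => sum_seg_compact hc hL s
  have hmono : ∀ s, L ⊆ P s ∧ P s ⊆ P Finset.univ := by
    have h0 : ∀ s : Finset ι, (0 : Fin (m + 1) → ℝ) ∈ ∑ i ∈ s, segment ℝ (-v i) (v i) := fun s => by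
      simpa using Set.finsetSum_mem_finsetSum (t := s) (f := fun i => segment ℝ (-v i) (v i))
        (g := fun _ => (0 : Fin (m + 1) → ℝ)) (fun i _ => mem_seg.2 ⟨0, by simp, by simp⟩)
    intro s
    refine ⟨Set.subset_add_left _ (h0 s), ?_⟩
    simp only [P]
    rw [← Finset.sum_sdiff (Finset.subset_univ s), ← add_assoc, add_right_comm]
    exact Set.subset_add_left _ (h0 _)
  have hU : P Finset.univ = L + zonotope v := by simp only [P, zonotope_eq_sum]
  have key : ∀ s, (volume L).toReal + 2 * ∑ i ∈ s, area (v i) L ≤ (volume (P s)).toReal ∧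
      (volume (P s)).toReal ≤
        (volume L).toReal + 2 * ∑ i ∈ s, area (v i) (P Finset.univ) := by
    intro s
    induction s using Finset.cons_induction with
    | empty => simp [P]
    | cons a s ha ih =>
      have e : P (Finset.cons a s ha) = P s + segment ℝ (-v a) (v a) := by
        simp only [P, Finset.sum_cons]
        rw [add_comm (segment ℝ _ _), add_assoc]
      have ev : (volume (P (Finset.cons a s ha))).toReal
          = (volume (P s)).toReal + 2 * area (v a) (P s) := by
        rw [e, area]; ring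
      rw [Finset.sum_cons, Finset.sum_cons, ev]
      rcases eq_or_ne (v a) 0 with hva | hva
      · simp only [hva, area_zero, mul_zero, add_zero, zero_add]
        exact ih
      have h1 := area_mono hva hc hL (hP s).1 (hP s).2 (hmono s).1
      have h2 := area_mono hva (hP s).1 (hP s).2 (hP _).1 (hP _).2 (hmono s).2
      constructor <;> linarith [ih.1, ih.2]
  have := key Finset.univ
  rwa [hU] at this

theorem sum_area_zonotope (v : ι → Fin (m + 1) → ℝ) :
    (m + 1 : ℝ) * (volume (zonotope v)).toReal = 2 * ∑ i, area (v i) (zonotope v) := by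
  set Z := zonotope v
  have hc := zonotope_compact v
  have hcv := zonotope_convex v
  set A := ∑ i, area (v i) Z
  set V := (volume Z).toReal
  have h : ∀ t : ℝ, 0 < t → V + 2 * (t * A) ≤ (1 + t) ^ (m + 1) * V ∧
      (1 + t) ^ (m + 1) * V ≤ V + 2 * (t * ((1 + t) ^ m * A)) := by
    intro t ht
    have h := sum_area_le (v := fun i => t • v i) hc hcv
    have eZ : Z + zonotope (fun i => t • v i) = (1 + t) • Z := by
      rw [zonotope_smul ht.le, hcv.add_smul zero_le_one ht.le, one_smul]
    rw [eZ] at h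
    have e1 : ∀ i, area (t • v i) ((1 + t) • Z) = t * ((1 + t) ^ m * area (v i) Z) := fun i => by
      rw [area_smul (hc.smul (1 + t)) (hcv.smul (1 + t)) ht.le,
        area_dilate hc hcv (by linarith : (0 : ℝ) ≤ 1 + t)]
    simp only [area_smul hc hcv ht.le, e1, ← Finset.mul_sum] at h
    rw [Measure.addHaar_smul, Module.finrank_fin_fun, ENNReal.toReal_mul,
      ENNReal.toReal_ofReal (abs_nonneg _), abs_of_nonneg (by positivity)] at h
    exact h
  have hd : Tendsto (fun t : ℝ => t⁻¹ * ((1 + t) ^ (m + 1) - 1) * V) (𝓝[>] 0)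
      (𝓝 ((m + 1 : ℝ) * V)) := by
    have h1 : HasDerivAt (fun t : ℝ => (1 + t) ^ (m + 1)) (m + 1 : ℝ) 0 := by
      simpa using (((hasDerivAt_id (0 : ℝ)).const_add 1).fun_pow (m + 1))
    refine Tendsto.mul_const V ?_
    simpa using (h1.tendsto_slope_zero_right)
  refine le_antisymm (le_of_tendsto_of_tendsto hd
      (((Continuous.tendsto' (by fun_prop : Continuous fun t : ℝ => 2 * ((1 + t) ^ m * A))) 0 _
        (by simp)).mono_left nhdsWithin_le_nhds) ?_) (ge_of_tendsto hd ?_)
  · filter_upwards [self_mem_nhdsWithin] with t (ht : 0 < t)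
    rw [mul_assoc, inv_mul_le_iff₀ ht]
    linarith [(h t ht).2]
  · filter_upwards [self_mem_nhdsWithin] with t (ht : 0 < t)
    rw [mul_assoc, le_inv_mul_iff₀ ht]
    linarith [(h t ht).1]

/-- Brunn–Minkowski in multiplicative form. -/
theorem brunn_minkowski {A B : Set (Fin n → ℝ)} (hA : IsCompact A) (hB : IsCompact B) {p q : ℝ}
    (hp : 0 < p) (hq : 0 < q) (hpq : p + q = 1) :
    volume A ^ p * volume B ^ q ≤ volume (p • A + q • B) := by
  have hC := (hA.smul p).add (hB.smul q)
  rw [← lintegral_indicator_one hA.measurableSet, ← lintegral_indicator_one hB.measurableSet,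
    ← lintegral_indicator_one hC.measurableSet]
  refine P219.pl_pi hp hq hpq n _ _ _ (measurable_one.indicator hA.measurableSet)
    (measurable_one.indicator hB.measurableSet) (measurable_one.indicator hC.measurableSet)
    fun x y => ?_
  by_cases hx : x ∈ A
  · by_cases hy : y ∈ B
    · rw [indicator_of_mem hx, indicator_of_mem hy,
        indicator_of_mem (Set.add_mem_add (smul_mem_smul_set hx) (smul_mem_smul_set hy))]
      simp
    · simp [indicator_of_notMem hy, ENNReal.zero_rpow_of_pos hq]
  · simp [indicator_of_notMem hx, ENNReal.zero_rpow_of_pos hp]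

theorem Body.volume_pos {L : Set (Fin n → ℝ)} (hL : Body L) : 0 < (volume L).toReal :=
  ENNReal.toReal_pos (pos_iff_ne_zero.1 ((isOpen_interior.measure_pos volume
    hL.interior_nonempty).trans_le (measure_mono interior_subset))) hL.compact.measure_lt_top.ne

theorem Body.zero_interior {L : Set (Fin n → ℝ)} (hL : Body L) :
    (0 : Fin n → ℝ) ∈ interior L := by
  obtain ⟨x, hx⟩ := hL.interior_nonempty
  have := hL.convex.openSegment_interior_self_subset_interior hx
    (hL.neg_mem x (interior_subset hx))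
  refine this ⟨1 / 2, 1 / 2, by norm_num, by norm_num, by norm_num, ?_⟩
  simp

/-- Minkowski's first inequality against a zonotope, in logarithmic form. -/
theorem minkowski_log (hL : Body L) (v : ι → Fin (m + 1) → ℝ)
    (hv : 0 < (volume (zonotope v)).toReal) :
    (m + 1 : ℝ) * (volume L).toReal
        + (volume L).toReal * Real.log ((volume (zonotope v)).toReal / (volume L).toReal)
      ≤ 2 * ∑ i, area (v i) L := by
  set Z := zonotope v
  set a := (volume L).toReal
  set b := (volume Z).toReal
  have ha : 0 < a := hL.volume_pos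
  have hc := zonotope_compact v
  have h0 : L ∈ 𝓝 (0 : Fin (m + 1) → ℝ) := mem_interior_iff_mem_nhds.1 hL.zero_interior
  obtain ⟨C, hC, hZ⟩ : ∃ C : ℝ, 0 < C ∧ Z ⊆ C • L := by
    obtain ⟨δ, hδ, hball⟩ := Metric.mem_nhds_iff.1 h0
    obtain ⟨R, hR, hRZ⟩ := hc.isBounded.exists_pos_norm_le
    refine ⟨2 * R / δ, by positivity, fun z hz => ⟨(δ / (2 * R)) • z, hball ?_, ?_⟩⟩
    · rw [mem_ball_zero_iff, norm_smul, Real.norm_eq_abs, abs_of_pos (by positivity)]
      calc δ / (2 * R) * ‖z‖ ≤ δ / (2 * R) * R :=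
            mul_le_mul_of_nonneg_left (hRZ z hz) (by positivity)
        _ < δ := by field_simp; norm_num
    · simp only [smul_smul]
      field_simp
      simp
  set A := ∑ i, area (v i) L
  have h : ∀ t : ℝ, 0 < t →
      (m + 1 : ℝ) * a + a * Real.log (b / a) / (1 + t)
          + (m + 1 : ℝ) * t * (a * Real.log (b / a)) / (1 + t)
        ≤ 2 * ((1 + t * C) ^ m * A) ∨ 1 + t / (1 + t) * Real.log (b / a) < 0 := by
    intro t ht
    by_cases hneg : 1 + t / (1 + t) * Real.log (b / a) < 0
    · exact Or.inr hneg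
    refine Or.inl ?_
    have hsub : L + zonotope (fun i => t • v i) ⊆ (1 + t * C) • L := by
      rw [zonotope_smul ht.le, hL.convex.add_smul zero_le_one (by positivity), one_smul,
        mul_smul]
      exact Set.add_subset_add_left (smul_set_mono hZ)
    have hcvz := zonotope_convex (fun i => t • v i)
    have hcz := zonotope_compact (fun i => t • v i)
    have h1 := (sum_area_le (v := fun i => t • v i) hL.compact hL.convex).2
    have h2 : ∑ i, area (t • v i) (L + zonotope fun i => t • v i)
        ≤ t * ((1 + t * C) ^ m * A) := by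
      rw [Finset.mul_sum, Finset.mul_sum]
      refine Finset.sum_le_sum fun i _ => ?_
      rw [area_smul (hL.compact.add hcz) (hL.convex.add hcvz) ht.le]
      refine mul_le_mul_of_nonneg_left ?_ ht.le
      rcases eq_or_ne (v i) 0 with hi | hi
      · simp [hi, area_zero]
      rw [← area_dilate hL.compact hL.convex (by positivity)]
      exact area_mono hi (hL.compact.add hcz) (hL.convex.add hcvz) (hL.compact.smul _)
        (hL.convex.smul _) hsub
    set p := 1 / (1 + t)
    set q := t / (1 + t)
    have hp : 0 < p := by positivity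
    have hq : 0 < q := by positivity
    have hpq : p + q = 1 := by simp only [p, q]; field_simp
    have hbm := brunn_minkowski hL.compact hc hp hq hpq
    have e : L + zonotope (fun i => t • v i) = (1 + t) • (p • L + q • Z) := by
      rw [zonotope_smul ht.le, smul_add, smul_smul, smul_smul]
      simp only [p, q, Z, mul_div_cancel₀ _ (by positivity : (1 + t : ℝ) ≠ 0), one_smul]
    rw [e, Measure.addHaar_smul, Module.finrank_fin_fun, ENNReal.toReal_mul,
      ENNReal.toReal_ofReal (abs_nonneg _), abs_of_nonneg (by positivity)] at h1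
    have h3 := ENNReal.toReal_mono ((hL.compact.smul p).add (hc.smul q)).measure_lt_top.ne hbm
    rw [ENNReal.toReal_mul, ← ENNReal.toReal_rpow, ← ENNReal.toReal_rpow] at h3
    have h4 : a * (1 + q * Real.log (b / a)) ≤ a ^ p * b ^ q := by
      have : a ^ p * b ^ q = a * Real.exp (q * Real.log (b / a)) := by
        rw [Real.rpow_def_of_pos ha, Real.rpow_def_of_pos hv, Real.log_div hv.ne' ha.ne',
          ← Real.exp_add]
        conv_rhs => rw [← Real.exp_log ha, ← Real.exp_add, Real.log_exp]
        congr 1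
        rw [show p = 1 - q by linarith]
        ring
      rw [this]
      exact mul_le_mul_of_nonneg_left (by linarith [Real.add_one_le_exp (q * Real.log (b / a))])
        ha.le
    have h5 : 1 + (m + 1 : ℝ) * t ≤ (1 + t) ^ (m + 1) := by
      have := one_add_mul_le_pow (show (-2 : ℝ) ≤ t by linarith) (m + 1)
      push_cast at this
      exact this
    have h6 : (1 + (m + 1 : ℝ) * t) * (a * (1 + q * Real.log (b / a)))
        ≤ a + 2 * (t * ((1 + t * C) ^ m * A)) := by
      refine le_trans ?_ (h1.trans (by rw [← e]; linarith))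
      refine le_trans (mul_le_mul_of_nonneg_right h5
        (mul_nonneg ha.le (not_lt.1 hneg))) ?_
      exact mul_le_mul_of_nonneg_left (h4.trans h3) (by positivity)
    refine le_of_mul_le_mul_left ?_ ht
    have e7 : t * ((m + 1 : ℝ) * a + a * Real.log (b / a) / (1 + t)
        + (m + 1 : ℝ) * t * (a * Real.log (b / a)) / (1 + t))
        = (1 + (m + 1 : ℝ) * t) * (a * (1 + q * Real.log (b / a))) - a := by
      simp only [q]; field_simp; ring
    linarith
  have hlim : Tendsto (fun t : ℝ => (m + 1 : ℝ) * a + a * Real.log (b / a) / (1 + t)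
      + (m + 1 : ℝ) * t * (a * Real.log (b / a)) / (1 + t)) (𝓝[>] 0)
      (𝓝 ((m + 1 : ℝ) * a + a * Real.log (b / a))) := by
    refine Tendsto.mono_left ?_ nhdsWithin_le_nhds
    have : ContinuousAt (fun t : ℝ => (m + 1 : ℝ) * a + a * Real.log (b / a) / (1 + t)
        + (m + 1 : ℝ) * t * (a * Real.log (b / a)) / (1 + t)) 0 := by
      fun_prop (disch := norm_num)
    simpa using this.tendsto
  have hpos : ∀ᶠ t in 𝓝[>] (0 : ℝ), ¬ 1 + t / (1 + t) * Real.log (b / a) < 0 := by
    have hc : ContinuousAt (fun t : ℝ => 1 + t / (1 + t) * Real.log (b / a)) 0 := by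
      fun_prop (disch := norm_num)
    filter_upwards [(hc.eventually (eventually_gt_nhds (by simp : (0 : ℝ) <
      1 + 0 / (1 + 0) * Real.log (b / a)))).filter_mono nhdsWithin_le_nhds] with t ht
    exact not_lt.2 ht.le
  refine le_of_tendsto_of_tendsto hlim
    (((Continuous.tendsto' (by fun_prop : Continuous fun t : ℝ => 2 * ((1 + t * C) ^ m * A))) 0 _
      (by simp)).mono_left nhdsWithin_le_nhds) ?_
  filter_upwards [self_mem_nhdsWithin, hpos] with t (ht : 0 < t) ht'
  exact (h t ht).resolve_right ht'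

end

end Vale.Agent.P227.Zono
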