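import Vale.Agent.P227.Zono.Statement

/-!
# P227: zonotopes, their cone-volume weights, and the notions of the statement
-/

namespace Vale.Agent.P227.Zono

open MeasureTheory Set

noncomputable section

variable {n : ℕ}

variable {ι : Type*} [Fintype ι] {m : ℕ}

/-- The vector `c_I` normal to `v (I k)`, `k : Fin m`, with `⟨c_I, x⟩ = det (x, v (I 0), …)`. -/
def normalVec (v : ι → Fin (m + 1) → ℝ) (I : Fin m → ι) (j : Fin (m + 1)) : ℝ :=
  (Matrix.of (Fin.cons (Pi.single j (1 : ℝ)) fun k => v (I k))).det

/-- The weight of the normal `c_I` in the cone-volume measure of the zonotope, which is also its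
support function there. -/
def facetWeight (v : ι → Fin (m + 1) → ℝ) (I : Fin m → ι) : ℝ :=
  ∑ i, |(Matrix.of (Fin.cons (v i) fun k => v (I k))).det|

/-- The logarithmic Minkowski inequality for the zonotope of `v` and the body `L`. -/
def LogMinkowskiAt (v : ι → Fin (m + 1) → ℝ) (L : Set (Fin (m + 1) → ℝ)) : Prop :=
  (∑ I : Fin m → ι, facetWeight v I) / (m + 1) *
      Real.log ((volume L).toReal / (volume (zonotope v)).toReal) ≤
    ∑ I : Fin m → ι, facetWeight v I *
      Real.log (supportVal L (normalVec v I) / facetWeight v I)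

end

end Vale.Agent.P227.Zono
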