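import Vale.Agent.P227.Zono.Key

/-!
# P227: outer normals through the gauge, and the cone-volume measure of a zonotope
-/

namespace Vale.Agent.P227.Zono

open MeasureTheory Set Finset Filter Topology
open scoped Pointwise ENNReal

noncomputable section

variable {n m : ℕ}

variable {K : Set (Fin n → ℝ)}

theorem normalAt_dot (x z : Fin n → ℝ) : normalAt K x ⬝ᵥ z = fderiv ℝ (gauge K) x z := by
  conv_rhs => rw [pi_eq_sum_univ' z, map_sum]
  refine Finset.sum_congr rfl fun j _ => ?_
  rw [map_smul, smul_eq_mul, mul_comm]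
  rfl

theorem measurable_normalAt (K : Set (Fin n → ℝ)) : Measurable (normalAt K) :=
  measurable_pi_lambda _ fun _ => measurable_fderiv_apply_const ℝ _ _

theorem Body.nhds (hK : Body K) : K ∈ 𝓝 (0 : Fin n → ℝ) :=
  mem_interior_iff_mem_nhds.1 hK.zero_interior

theorem Body.gauge_le_one (hK : Body K) {x : Fin n → ℝ} : gauge K x ≤ 1 ↔ x ∈ K := by
  rw [gauge_le_one_iff_mem_closure hK.convex hK.nhds, hK.compact.isClosed.closure_eq]

theorem Body.gauge_smul (_hK : Body K) {a : ℝ} (ha : 0 ≤ a) (x : Fin n → ℝ) :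
    gauge K (a • x) = a * gauge K x := by
  rw [gauge_smul_of_nonneg ha, smul_eq_mul]

theorem Body.gauge_pos' (hK : Body K) {x : Fin n → ℝ} (hx : x ≠ 0) : 0 < gauge K x := by
  obtain ⟨R, hR, hb⟩ := hK.compact.isBounded.exists_pos_norm_le
  refine lt_of_lt_of_le (div_pos (norm_pos_iff.2 hx) hR)
    (le_gauge_of_subset_closedBall (absorbent_nhds_zero hK.nhds) hR.le fun z hz => ?_)
  simpa using hb z hz

theorem Body.inv_smul_mem (hK : Body K) (x : Fin n → ℝ) : (gauge K x)⁻¹ • x ∈ K := by
  rw [← hK.gauge_le_one, hK.gauge_smul (inv_nonneg.2 (gauge_nonneg x))]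
  exact inv_mul_le_one_of_le₀ le_rfl (gauge_nonneg x)

theorem Body.ae_differentiable (hK : Body K) :
    ∀ᵐ x : Fin n → ℝ, DifferentiableAt ℝ (gauge K) x := by
  obtain ⟨C, hC⟩ := hK.convex.lipschitz_gauge hK.nhds
  exact hC.ae_differentiableAt

theorem Body.dot_le_gauge (hK : Body K) {x : Fin n → ℝ} (hd : DifferentiableAt ℝ (gauge K) x)
    (z : Fin n → ℝ) : normalAt K x ⬝ᵥ z ≤ gauge K z := by
  rw [normalAt_dot]
  have h := (hd.hasFDerivAt.hasLineDerivAt z).tendsto_slope_zero_right
  refine le_of_tendsto h ?_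
  filter_upwards [self_mem_nhdsWithin] with t (ht : 0 < t)
  rw [smul_eq_mul, inv_mul_le_iff₀ ht, sub_le_iff_le_add, ← hK.gauge_smul ht.le, add_comm]
  exact gauge_add_le hK.convex (absorbent_nhds_zero hK.nhds) _ _

theorem Body.dot_self (hK : Body K) {x : Fin n → ℝ} (hd : DifferentiableAt ℝ (gauge K) x) :
    normalAt K x ⬝ᵥ x = gauge K x := by
  rw [normalAt_dot]
  have h1 := hd.hasFDerivAt.hasLineDerivAt x
  have h2 : HasDerivAt (fun t : ℝ => gauge K (x + t • x)) (gauge K x) 0 := by
    have h : HasDerivAt (fun t : ℝ => (1 + t) * gauge K x) (gauge K x) 0 := by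
      simpa using ((hasDerivAt_id (0 : ℝ)).const_add 1).mul_const (gauge K x)
    refine h.congr_of_eventuallyEq ?_
    filter_upwards [Ioi_mem_nhds (show (-1 : ℝ) < 0 by norm_num)] with t (ht : -1 < t)
    rw [← hK.gauge_smul (by linarith), add_smul, one_smul]
  exact h1.unique h2

theorem normalAt_eq {x u : Fin n → ℝ} (hd : DifferentiableAt ℝ (gauge K) x)
    (hle : ∀ z, u ⬝ᵥ z ≤ gauge K z) (hx : u ⬝ᵥ x = gauge K x) : normalAt K x = u := by
  set φ : (Fin n → ℝ) →L[ℝ] ℝ := LinearMap.toContinuousLinearMap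
    ({ toFun := fun z => u ⬝ᵥ z
       map_add' := dotProduct_add u
       map_smul' := fun c z => dotProduct_smul c u z } : (Fin n → ℝ) →ₗ[ℝ] ℝ)
  have hmin : IsLocalMin (fun z => gauge K z - φ z) x := Eventually.of_forall fun z => by
    show gauge K x - u ⬝ᵥ x ≤ gauge K z - u ⬝ᵥ z
    linarith [hle z]
  have h0 := hmin.hasFDerivAt_eq_zero (hd.hasFDerivAt.sub φ.hasFDerivAt)
  funext j
  have := congrArg (fun L : (Fin n → ℝ) →L[ℝ] ℝ => L (Pi.single j 1)) h0
  simp only [_root_.sub_apply, _root_.zero_apply, sub_eq_zero] at this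
  rw [normalAt, this]
  show u ⬝ᵥ Pi.single j 1 = u j
  rw [dotProduct_single, mul_one]

theorem Body.le_gauge_of_supportVal (hK : Body K) {u : Fin n → ℝ} (h : supportVal K u ≤ 1)
    (z : Fin n → ℝ) : u ⬝ᵥ z ≤ gauge K z := by
  rcases eq_or_ne z 0 with rfl | hz
  · simp
  have h1 := ((le_abs_self _).trans ((supportVal_eq hK u).1 _ (hK.inv_smul_mem z))).trans h
  rw [dotProduct_smul, smul_eq_mul, inv_mul_le_iff₀ (hK.gauge_pos' hz), mul_one] at h1
  exact h1

variable {ι : Type*} [Fintype ι] {v : ι → Fin (m + 1) → ℝ}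

theorem zonotope_body (hv : 0 < (volume (zonotope v)).toReal) : Body (zonotope v) := by
  refine ⟨zonotope_compact v, zonotope_convex v, ?_, ?_⟩
  · by_contra h
    rw [Set.not_nonempty_iff_eq_empty] at h
    have hf : volume (frontier (zonotope v)) = 0 := (zonotope_convex v).addHaar_frontier _
    rw [frontier, (zonotope_compact v).isClosed.closure_eq, h, sdiff_empty] at hf
    simp [hf] at hv
  · rintro - ⟨t, ht, rfl⟩
    exact ⟨-t, fun i => by simpa using ht i, by simp⟩

theorem supportVal_zonotope (hv : 0 < (volume (zonotope v)).toReal) (u : Fin (m + 1) → ℝ) :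
    supportVal (zonotope v) u = ∑ i, |u ⬝ᵥ v i| := by
  obtain ⟨h1, x, hx, h2⟩ := supportVal_eq (zonotope_body hv) u
  refine le_antisymm ?_ ?_
  · obtain ⟨t, ht, rfl⟩ := hx
    rw [← h2, dotProduct_sum]
    refine (Finset.abs_sum_le_sum_abs _ _).trans (Finset.sum_le_sum fun i _ => ?_)
    rw [dotProduct_smul, smul_eq_mul, abs_mul]
    exact mul_le_of_le_one_left (abs_nonneg _) (ht i)
  · refine le_trans (le_of_eq ?_) ((le_abs_self _).trans (h1 (∑ i, Real.sign (u ⬝ᵥ v i) • v i)
      ⟨_, fun i => by rcases Real.sign_apply_eq (u ⬝ᵥ v i) with h | h | h <;> simp [h], rfl⟩))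
    rw [dotProduct_sum]
    refine Finset.sum_congr rfl fun i _ => ?_
    rw [dotProduct_smul, smul_eq_mul]
    rcases lt_trichotomy (u ⬝ᵥ v i) 0 with h | h | h
    · rw [Real.sign_of_neg h, abs_of_neg h]; ring
    · simp [h]
    · rw [Real.sign_of_pos h, abs_of_pos h, one_mul]

/-- A vector orthogonal to `v (I k)` for all `k` is a multiple of the normal. -/
theorem normal_unique {I : Fin m → ι} (hg : 0 < facetWeight v I) {u : Fin (m + 1) → ℝ}
    (hu : ∀ k, u ⬝ᵥ v (I k) = 0) : ∃ a : ℝ, u = a • normalVec v I := by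
  set c := normalVec v I
  obtain ⟨i, hi⟩ : ∃ i, c ⬝ᵥ v i ≠ 0 := by
    by_contra h
    push Not at h
    simp [facetWeight_eq, cdet_eq, c, h] at hg
  refine ⟨u ⬝ᵥ v i / c ⬝ᵥ v i, ?_⟩
  set M := Matrix.of (Fin.cons (v i) fun k => v (I k))
  have hM : M.det ≠ 0 := by
    intro h
    refine hi (abs_eq_zero.1 ?_)
    rw [← cdet_eq, cdet, D, h, abs_zero]
  set a := u ⬝ᵥ v i / c ⬝ᵥ v i
  refine sub_eq_zero.1 (Matrix.eq_zero_of_mulVec_eq_zero hM (funext fun k => ?_))
  have hk : ∀ z : Fin (m + 1) → ℝ, z ⬝ᵥ (u - a • c) = u ⬝ᵥ z - a * c ⬝ᵥ z := fun z => by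
    rw [dotProduct_sub, dotProduct_smul, smul_eq_mul, dotProduct_comm z u, dotProduct_comm z c]
  show M k ⬝ᵥ (u - a • c) = 0
  rw [hk]
  refine Fin.cases ?_ (fun k => ?_) k
  · rw [show M 0 = v i from rfl]
    simp only [a]
    field_simp
    ring
  · rw [show M k.succ = v (I k) from rfl]
    have h0 : c ⬝ᵥ v (I k) = 0 := abs_eq_zero.1 (by
      rw [← cdet_eq, cdet, D, Matrix.det_zero_of_row_eq (Fin.succ_ne_zero k) rfl, abs_zero])
    rw [h0, hu k]; ring

/-- The part of the zonotope radially below the facet with normal `p`. -/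
def coneSet (v : ι → Fin (m + 1) → ℝ) (p : Fin (m + 1) → ℝ) : Set (Fin (m + 1) → ℝ) :=
  {x ∈ zonotope v | gauge (zonotope v) x = p ⬝ᵥ x}

theorem measurableSet_coneSet (hv : 0 < (volume (zonotope v)).toReal) (p : Fin (m + 1) → ℝ) :
    MeasurableSet (coneSet v p) :=
  ((zonotope_compact v).isClosed.inter (isClosed_eq
    (continuous_gauge (zonotope_convex v) (zonotope_body hv).nhds)
    (continuous_finsetSum _ fun i _ => continuous_const.mul (continuous_apply i)))).measurableSet

theorem volume_zonotope_tuples : ∀ (m : ℕ) (w : ι → Fin m → ℝ),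
    (m.factorial : ℝ) * (volume (zonotope w)).toReal
      = 2 ^ m * ∑ J : Fin m → ι, D (fun k => w (J k))
  | 0, w => by
    rw [zonotope_fin_zero, Fintype.sum_unique]
    simp [D]
  | m + 1, w => by rw [volume_zonotope, total_eq_tuples]

open Classical in
theorem volume_coneSet (hv : 0 < (volume (zonotope v)).toReal) {p : Fin (m + 1) → ℝ}
    (hp : ∑ i, |p ⬝ᵥ v i| = 1) :
    ((m + 1).factorial : ℝ) * (volume (coneSet v p)).toReal
      = 2 ^ m * ∑ I : Fin m → ι, if ∀ k, p ⬝ᵥ v (I k) = 0 then facetWeight v I else 0 := by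
  have hZ := zonotope_body hv
  obtain ⟨k₀, hk₀⟩ : ∃ k, p k ≠ 0 := by
    by_contra h
    push Not at h
    simp [funext h] at hp
  -- coordinates with first entry `p ⬝ᵥ x`
  let T : (Fin (m + 1) → ℝ) →ₗ[ℝ] Fin (m + 1) → ℝ :=
    { toFun := fun x => Fin.cons (p ⬝ᵥ x) fun j => x (k₀.succAbove j)
      map_add' := fun x y => by
        funext j; refine Fin.cases ?_ (fun j => ?_) j <;> simp [dotProduct_add]
      map_smul' := fun c x => by
        funext j; refine Fin.cases ?_ (fun j => ?_) j <;> simp [dotProduct_smul] }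
  have hTinj : Function.Injective T := by
    refine (injective_iff_map_eq_zero T).2 fun x hx => ?_
    have h0 : p ⬝ᵥ x = 0 := congrFun hx 0
    have hj : ∀ j, x (k₀.succAbove j) = 0 := fun j => congrFun hx j.succ
    have hk : x k₀ = 0 := by
      rw [dotProduct, Fin.sum_univ_succAbove _ k₀] at h0
      simpa [hj, hk₀] using h0
    funext l
    rcases Fin.eq_self_or_eq_succAbove k₀ l with rfl | ⟨j, rfl⟩
    exacts [hk, hj j]
  have hdet : LinearMap.det T ≠ 0 :=
    (LinearEquiv.isUnit_det' (LinearEquiv.ofBijective T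
      ⟨hTinj, LinearMap.injective_iff_surjective.1 hTinj⟩)).ne_zero
  have hT0 : ∀ x, T x 0 = p ⬝ᵥ x := fun x => rfl
  set a := fun i => p ⬝ᵥ v i
  set w : ι → Fin m → ℝ := fun i => if a i = 0 then Fin.tail (T (v i)) else 0
  set x₀ := ∑ i, Real.sign (a i) • v i
  -- the facet
  have hface : {y | (Fin.cons 1 y : Fin (m + 1) → ℝ) ∈ T '' zonotope v}
      = (fun y => Fin.tail (T x₀) + y) '' zonotope w := by
    ext y
    constructor
    · rintro ⟨-, ⟨t, ht, rfl⟩, he⟩
      have h1 : ∑ i, t i * a i = ∑ i, |a i| := by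
        rw [hp]
        have := congrFun he 0
        rw [hT0, dotProduct_sum, Fin.cons_zero] at this
        simpa [dotProduct_smul, a] using this
      have h2 : ∀ i, a i ≠ 0 → t i = Real.sign (a i) := by
        intro i hi
        have h3 : ∀ j ∈ Finset.univ, t j * a j ≤ |a j| := fun j _ =>
          (le_abs_self _).trans (by rw [abs_mul]; exact mul_le_of_le_one_left (abs_nonneg _) (ht j))
        have := (Finset.sum_eq_sum_iff_of_le h3).1 h1 i (Finset.mem_univ i)
        refine mul_right_cancel₀ hi (this.trans ?_)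
        rcases lt_or_gt_of_ne hi with h | h
        · rw [Real.sign_of_neg h, abs_of_neg h]; ring
        · rw [Real.sign_of_pos h, abs_of_pos h, one_mul]
      refine ⟨∑ i, t i • w i, ⟨t, ht, rfl⟩, ?_⟩
      have : y = Fin.tail (T (∑ i, t i • v i)) := by rw [he, Fin.tail_cons]
      rw [this]
      funext j
      simp only [x₀, map_sum, map_smul, Fin.tail, Pi.add_apply, Finset.sum_apply, Pi.smul_apply,
        smul_eq_mul, ← Finset.sum_add_distrib, w]
      refine Finset.sum_congr rfl fun i _ => ?_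
      by_cases hi : a i = 0
      · simp [hi, Fin.tail]
      · simp [hi, h2 i hi]
    · rintro ⟨-, ⟨t, ht, rfl⟩, rfl⟩
      refine ⟨∑ i, (if a i = 0 then t i else Real.sign (a i)) • v i, ⟨_, fun i => ?_, rfl⟩, ?_⟩
      · split_ifs
        · exact ht i
        · rcases Real.sign_apply_eq (a i) with h | h | h <;> simp [h]
      funext j
      refine Fin.cases ?_ (fun j => ?_) j
      · rw [hT0, Fin.cons_zero, dotProduct_sum, ← hp]
        refine Finset.sum_congr rfl fun i _ => ?_
        rw [dotProduct_smul, smul_eq_mul]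
        by_cases hi : a i = 0
        · simp only [a] at hi; simp [a, hi]
        · rw [if_neg hi]
          rcases lt_or_gt_of_ne hi with h | h
          · rw [Real.sign_of_neg h]; simp only [a] at h ⊢; rw [abs_of_neg h]; ring
          · rw [Real.sign_of_pos h]; simp only [a] at h ⊢; rw [abs_of_pos h, one_mul]
      · simp only [x₀, map_sum, map_smul, Fin.tail, Pi.add_apply, Finset.sum_apply, Pi.smul_apply,
          smul_eq_mul, ← Finset.sum_add_distrib, w, Fin.cons_succ]
        refine Finset.sum_congr rfl fun i _ => ?_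
        by_cases hi : a i = 0
        · simp [hi, Fin.tail]
        · simp [hi]
  set F := {y | (Fin.cons 1 y : Fin (m + 1) → ℝ) ∈ T '' zonotope v}
  have hF : volume F = volume (zonotope w) := by
    rw [hface]
    rw [show (fun y => Fin.tail (T x₀) + y) '' zonotope w = (fun y => -Fin.tail (T x₀) + y) ⁻¹' zonotope w from Set.image_add_left, measure_preimage_add]
  have hfib : ∀ s : ℝ, s ≠ 0 → (fun y : Fin m → ℝ => (Fin.cons s y : Fin (m + 1) → ℝ))
      ⁻¹' (T '' coneSet v p) = if 0 < s ∧ s ≤ 1 then s • F else ∅ := by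
    intro s hs
    have hle : ∀ z, p ⬝ᵥ z ≤ gauge (zonotope v) z :=
      hZ.le_gauge_of_supportVal (by rw [supportVal_zonotope hv, hp])
    split_ifs with h
    · ext y
      rw [mem_smul_set_iff_inv_smul_mem₀ hs]
      constructor
      · rintro ⟨x, ⟨hxZ, hxg⟩, he⟩
        have h0 : p ⬝ᵥ x = s := by simpa [hT0] using congrFun he 0
        refine ⟨(gauge (zonotope v) x)⁻¹ • x, hZ.inv_smul_mem x, ?_⟩
        rw [hxg, h0, map_smul, he]
        funext j
        refine Fin.cases ?_ (fun j => ?_) j <;> simp [hs]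
      · rintro ⟨z, hz, he⟩
        have h1 : p ⬝ᵥ z = 1 := by simpa [hT0] using congrFun he 0
        have hgz : gauge (zonotope v) z = 1 :=
          le_antisymm (hZ.gauge_le_one.2 hz) (h1 ▸ hle z)
        refine ⟨s • z, ⟨hZ.gauge_le_one.1 ?_, ?_⟩, ?_⟩
        · rw [hZ.gauge_smul h.1.le, hgz, mul_one]; exact h.2
        · rw [hZ.gauge_smul h.1.le, hgz, dotProduct_smul, smul_eq_mul, h1]
        · rw [map_smul, he]
          funext j
          refine Fin.cases ?_ (fun j => ?_) j <;> simp [hs]
    · refine eq_empty_of_forall_notMem fun y hy => h ?_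
      obtain ⟨x, ⟨hxZ, hxg⟩, he⟩ := hy
      have h0 : p ⬝ᵥ x = s := by simpa [hT0] using congrFun he 0
      rw [← h0, ← hxg]
      refine ⟨lt_of_le_of_ne (gauge_nonneg x) ?_, hZ.gauge_le_one.2 hxZ⟩
      rw [hxg, h0]; exact hs.symm
  have hvol : (volume (T '' coneSet v p)).toReal
      = (volume (zonotope w)).toReal / (m + 1) := by
    have hm : MeasurableSet (T '' coneSet v p) := by
      refine ((((zonotope_compact v).inter_right (isClosed_eq
        (continuous_gauge hZ.convex hZ.nhds)
        (continuous_finsetSum _ fun i _ => continuous_const.mul (continuous_apply i)))).image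
        T.continuous_of_finiteDimensional)).isClosed.measurableSet
    have hpre := (volume_preserving_piFinSuccAbove (fun _ : Fin (m + 1) => ℝ) 0).symm
    rw [← hpre.measure_preimage hm.nullMeasurableSet, Measure.volume_eq_prod,
      Measure.prod_apply (hpre.measurable hm)]
    have e : ∀ᵐ s : ℝ, volume (Prod.mk s ⁻¹'
        ((MeasurableEquiv.piFinSuccAbove (fun _ : Fin (m + 1) => ℝ) 0).symm ⁻¹'
          (T '' coneSet v p)))
        = (Set.Ioc (0 : ℝ) 1).indicator (fun s => ENNReal.ofReal (s ^ m) * volume F) s := by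
      filter_upwards [Measure.ae_ne volume (0 : ℝ)] with s hs
      have e1 : (Prod.mk s ⁻¹'
          ((MeasurableEquiv.piFinSuccAbove (fun _ : Fin (m + 1) => ℝ) 0).symm ⁻¹'
            (T '' coneSet v p))) = (fun y : Fin m → ℝ => (Fin.cons s y : Fin (m + 1) → ℝ))
          ⁻¹' (T '' coneSet v p) := by
        ext y
        simp [MeasurableEquiv.piFinSuccAbove_symm_apply, Fin.consEquiv]
      rw [e1, hfib s hs]
      by_cases h : 0 < s ∧ s ≤ 1
      · rw [if_pos h, indicator_of_mem (show s ∈ Set.Ioc (0 : ℝ) 1 from h), Measure.addHaar_smul,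
          Module.finrank_fin_fun, abs_of_nonneg (pow_nonneg h.1.le m)]
      · rw [if_neg h, indicator_of_notMem (show s ∉ Set.Ioc (0 : ℝ) 1 from h), measure_empty]
    rw [lintegral_congr_ae e, lintegral_indicator measurableSet_Ioc,
      lintegral_mul_const _ (by fun_prop), ENNReal.toReal_mul, hF]
    have e2 : (∫⁻ s in Set.Ioc (0 : ℝ) 1, ENNReal.ofReal (s ^ m)).toReal = 1 / (m + 1) := by
      rw [← integral_eq_lintegral_of_nonneg_ae
        (by filter_upwards [ae_restrict_mem measurableSet_Ioc] with s hs using pow_nonneg hs.1.le m)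
        (by fun_prop), ← intervalIntegral.integral_of_le zero_le_one, integral_pow]
      simp
    rw [e2]
    ring
  rw [Measure.addHaar_image_linearMap, ENNReal.toReal_mul,
    ENNReal.toReal_ofReal (abs_nonneg _)] at hvol
  have hrel : ∀ I : Fin m → ι, D (fun k => w (I k))
      = |LinearMap.det T| * if ∀ k, p ⬝ᵥ v (I k) = 0 then facetWeight v I else 0 := by
    intro I
    split_ifs with h
    · have hI : ∀ k, w (I k) = Fin.tail (T (v (I k))) := fun k => by simp [w, a, h k]
      rw [facetWeight_eq, Finset.mul_sum]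
      have e : ∀ i, |LinearMap.det T| * cdet v I (v i) = |a i| * D (fun k => w (I k)) := by
        intro i
        rw [cdet, ← D_map, D, Matrix.det_succ_column_zero, Finset.sum_eq_single (0 : Fin (m + 1))]
        · simp only [Matrix.of_apply, Fin.cons_zero, Fin.val_zero, pow_zero, one_mul, hT0]
          rw [abs_mul]
          congr 1
          refine congrArg abs (congrArg Matrix.det ?_)
          ext k l
          simp [hI, Fin.tail]
        · intro k _ hk
          obtain ⟨k, rfl⟩ := Fin.exists_succ_eq.2 hk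
          simp [hT0, h k]
        · intro h'; exact absurd (Finset.mem_univ _) h'
      rw [Finset.sum_congr rfl fun i _ => e i, ← Finset.sum_mul, hp, one_mul]
    · push Not at h
      obtain ⟨k, hk⟩ := h
      rw [mul_zero, D, Matrix.det_eq_zero_of_row_eq_zero k fun l => by simp [w, a, hk], abs_zero]
  have hd := abs_ne_zero.2 hdet
  refine mul_left_cancel₀ hd ?_
  rw [mul_left_comm, hvol, mul_left_comm _ (2 ^ m : ℝ), Finset.mul_sum,
    ← Finset.sum_congr rfl fun I _ => hrel I, ← volume_zonotope_tuples, Nat.factorial_succ]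
  push_cast
  field_simp

open Classical in
/-- The cone-volume measure of a zonotope, tested on an even function. -/
theorem integral_normalAt (hv : 0 < (volume (zonotope v)).toReal) {φ : (Fin (m + 1) → ℝ) → ℝ}
    (hφ : ∀ u, φ (-u) = φ u) :
    IntegrableOn (fun x => φ (normalAt (zonotope v) x)) (zonotope v) ∧
    ((m + 1).factorial : ℝ) * ∫ x in zonotope v, φ (normalAt (zonotope v) x)
      = 2 ^ (m + 1) * ∑ I : Fin m → ι,
          facetWeight v I * φ ((facetWeight v I)⁻¹ • normalVec v I) := by
  set Z := zonotope v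
  have hZ := zonotope_body hv
  have hG := (total_pos_iff v).1 hv
  set S := (Finset.univ : Finset (Fin m → ι)).filter fun I => 0 < facetWeight v I
  set u := fun I : Fin m → ι => (facetWeight v I)⁻¹ • normalVec v I
  set P := S.image u ∪ S.image fun I => -u I
  have hu : ∀ I ∈ S, ∑ i, |u I ⬝ᵥ v i| = 1 := by
    intro I hI
    have hg := (Finset.mem_filter.1 hI).2
    simp only [u, smul_dotProduct, smul_eq_mul, abs_mul, ← Finset.mul_sum, abs_inv, abs_of_pos hg,
      ← cdet_eq, ← facetWeight_eq]
    exact inv_mul_cancel₀ hg.ne'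
  have hP : ∀ p ∈ P, ∑ i, |p ⬝ᵥ v i| = 1 := by
    intro p hp
    rcases Finset.mem_union.1 hp with hp | hp <;> obtain ⟨I, hI, rfl⟩ := Finset.mem_image.1 hp
    · exact hu I hI
    · simpa [neg_dotProduct] using hu I hI
  have hperp : ∀ I ∈ S, ∀ k, u I ⬝ᵥ v (I k) = 0 := by
    intro I _ k
    have h0 : normalVec v I ⬝ᵥ v (I k) = 0 := abs_eq_zero.1 (by
      rw [← cdet_eq, cdet, D, Matrix.det_zero_of_row_eq (Fin.succ_ne_zero k) rfl, abs_zero])
    simp [u, smul_dotProduct, h0]
  have hset : ∀ I ∈ S, P.filter (fun p => ∀ k, p ⬝ᵥ v (I k) = 0) = {u I, -u I} := by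
    intro I hI
    have hg := (Finset.mem_filter.1 hI).2
    ext p
    simp only [Finset.mem_filter, Finset.mem_insert, Finset.mem_singleton]
    constructor
    · rintro ⟨hp, hk⟩
      obtain ⟨a, rfl⟩ := normal_unique hg hk
      have := hP _ hp
      simp only [smul_dotProduct, smul_eq_mul, abs_mul, ← Finset.mul_sum, ← cdet_eq,
        ← facetWeight_eq] at this
      have ha : |a| = (facetWeight v I)⁻¹ := eq_inv_of_mul_eq_one_left this
      rcases abs_choice a with h | h
      · exact Or.inl (by simp only [u, ← ha, h])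
      · exact Or.inr (by simp only [u, ← ha, h, neg_smul, neg_neg])
    · rintro (rfl | rfl)
      · exact ⟨Finset.mem_union_left _ (Finset.mem_image_of_mem _ hI), hperp I hI⟩
      · exact ⟨Finset.mem_union_right _ (Finset.mem_image_of_mem _ hI),
          fun k => by rw [neg_dotProduct, hperp I hI k, neg_zero]⟩
  have hdistinct : ∀ I ∈ S, u I ≠ -u I := by
    intro I hI h
    have := hu I hI
    rw [eq_neg_iff_add_eq_zero, ← two_smul ℝ, smul_eq_zero] at h
    rw [h.resolve_left two_ne_zero] at this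
    simp at this
  -- sums over the facets
  have hsum : ∀ ψ : (Fin (m + 1) → ℝ) → ℝ, (∀ p, ψ (-p) = ψ p) →
      ((m + 1).factorial : ℝ) * ∑ p ∈ P, (volume (coneSet v p)).toReal * ψ p
        = 2 ^ (m + 1) * ∑ I : Fin m → ι, facetWeight v I * ψ (u I) := by
    intro ψ hψ
    rw [Finset.mul_sum, Finset.sum_congr rfl fun p hp => by
      rw [← mul_assoc, volume_coneSet hv (hP p hp), mul_assoc, Finset.sum_mul]]
    rw [← Finset.mul_sum, Finset.sum_comm, pow_succ, mul_assoc, Finset.mul_sum (a := (2 : ℝ))]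
    congr 1
    refine Finset.sum_congr rfl fun I _ => ?_
    have h0 : 0 ≤ facetWeight v I := Finset.sum_nonneg fun i _ => abs_nonneg _
    rcases h0.eq_or_lt with hg | hg
    · simp [← hg]
    have hI : I ∈ S := Finset.mem_filter.2 ⟨Finset.mem_univ _, hg⟩
    simp only [ite_mul, zero_mul]
    rw [← Finset.sum_filter, hset I hI, Finset.sum_pair (hdistinct I hI), hψ]
    ring
  -- the cones cover almost everything
  have hmeas : ∀ p, MeasurableSet (coneSet v p) := measurableSet_coneSet hv
  have hdisj : (P : Set (Fin (m + 1) → ℝ)).Pairwise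
      (Function.onFun (AEDisjoint volume) (coneSet v)) := by
    intro p _ q _ hpq
    let φ : (Fin (m + 1) → ℝ) →ₗ[ℝ] ℝ :=
      { toFun := fun z => (p - q) ⬝ᵥ z
        map_add' := dotProduct_add (p - q)
        map_smul' := fun c z => dotProduct_smul c (p - q) z }
    refine measure_mono_null (t := (LinearMap.ker φ : Set (Fin (m + 1) → ℝ))) ?_
      (Measure.addHaar_submodule _ _ fun htop => ?_)
    · rintro x ⟨⟨-, h1⟩, -, h2⟩
      show (p - q) ⬝ᵥ x = 0
      rw [sub_dotProduct, ← h1, ← h2, sub_self]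
    · have h := LinearMap.congr_fun (LinearMap.ker_eq_top.1 htop) (p - q)
      exact hpq (sub_eq_zero.1 (dotProduct_self_eq_zero.1 h))
  have hfin : ∀ p, volume (coneSet v p) ≠ ⊤ := fun p =>
    (lt_of_le_of_lt (measure_mono fun _ h => h.1) (zonotope_compact v).measure_lt_top).ne
  have hU : (⋃ p ∈ P, coneSet v p) =ᵐ[volume] Z := by
    refine ae_eq_of_subset_of_measure_ge (iUnion₂_subset fun p _ x h => h.1) ?_
      (MeasurableSet.biUnion P.countable_toSet fun p _ => hmeas p).nullMeasurableSet
      (zonotope_compact v).measure_lt_top.ne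
    rw [measure_biUnion_finset₀ hdisj fun p _ => (hmeas p).nullMeasurableSet,
      ← ENNReal.toReal_le_toReal (zonotope_compact v).measure_lt_top.ne
        (ENNReal.sum_ne_top.2 fun p _ => hfin p), ENNReal.toReal_sum fun p _ => hfin p]
    have h := hsum (fun _ => 1) (fun _ => rfl)
    simp only [mul_one] at h
    rw [← total, ← volume_zonotope m v] at h
    exact (mul_left_cancel₀ (by positivity) h).ge
  have hdiff := (zonotope_body hv).ae_differentiable
  have hpair : ∀ᵐ x : Fin (m + 1) → ℝ, ∀ p ∈ P, ∀ q ∈ P, x ∈ coneSet v p → x ∈ coneSet v q →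
      p = q := by
    refine (Finset.eventually_all P).2 fun p hp => (Finset.eventually_all P).2 fun q hq => ?_
    rcases eq_or_ne p q with h | h
    · exact Eventually.of_forall fun _ _ _ => h
    · have h0 := hdisj hp hq h
      filter_upwards [measure_eq_zero_iff_ae_notMem.1 h0] with x hx h1 h2
      exact absurd ⟨h1, h2⟩ hx
  have hae : (fun x => Z.indicator (fun x => φ (normalAt Z x)) x)
      =ᵐ[volume] fun x => ∑ p ∈ P, (coneSet v p).indicator (fun _ => φ p) x := by
    filter_upwards [hdiff, hpair, hU] with x hx hxp hxU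
    by_cases hxZ : x ∈ Z
    · obtain ⟨p, hp, hxc⟩ : ∃ p ∈ P, x ∈ coneSet v p := by
        have : x ∈ ⋃ p ∈ P, coneSet v p := (Eq.to_iff hxU).2 hxZ
        simpa using this
      rw [indicator_of_mem hxZ, Finset.sum_eq_single p (fun q hq hqp => indicator_of_notMem
        (fun h => hqp (hxp q hq p hp h hxc)) _) (fun h => absurd hp h), indicator_of_mem hxc]
      congr 1
      exact normalAt_eq hx (hZ.le_gauge_of_supportVal
        (by rw [supportVal_zonotope hv, hP p hp])) hxc.2.symm
    · rw [indicator_of_notMem hxZ, Finset.sum_eq_zero fun p _ =>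
        indicator_of_notMem (s := coneSet v p) (fun h => hxZ h.1) (fun _ => φ p)]
  have hint : ∀ p ∈ P, Integrable ((coneSet v p).indicator fun _ => φ p) volume := fun p _ =>
    (integrable_indicator_iff (hmeas p)).2 (integrableOn_const (hfin p))
  refine ⟨(integrable_indicator_iff (zonotope_compact v).measurableSet).1
    ((integrable_finsetSum P hint).congr hae.symm), ?_⟩
  rw [← integral_indicator (zonotope_compact v).measurableSet, integral_congr_ae hae,
    integral_finsetSum P hint, ← hsum φ hφ]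
  congr 1
  refine Finset.sum_congr rfl fun p _ => ?_
  rw [integral_indicator (hmeas p), setIntegral_const, smul_eq_mul]
  rfl

/-- The logarithmic Minkowski inequality for zonotopes in integral form. -/
theorem log_minkowski_integral {L : Set (Fin (m + 1) → ℝ)} (hL : Body L)
    (hv : 0 < (volume (zonotope v)).toReal)
    (hsmul : ∀ (a : ℝ) (u : Fin (m + 1) → ℝ), supportVal L (a • u) = |a| * supportVal L u) :
    (volume (zonotope v)).toReal / (m + 1) *
        Real.log ((volume L).toReal / (volume (zonotope v)).toReal)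
      ≤ ∫ x in zonotope v, Real.log (supportVal L (normalAt (zonotope v) x)) := by
  have h := log_minkowski m v L hL hv
  obtain ⟨-, e⟩ := integral_normalAt hv (φ := fun u => Real.log (supportVal L u)) fun u => by
    rw [show -u = (-1 : ℝ) • u by simp, hsmul]; simp
  have eV := volume_zonotope m v
  unfold LogMinkowskiAt at h
  refine le_of_mul_le_mul_left (a := ((m + 1).factorial : ℝ)) ?_ (by positivity)
  rw [e, ← mul_assoc, mul_div_assoc', eV]
  refine le_trans (le_of_eq ?_) (mul_le_mul_of_nonneg_left (h.trans (le_of_eq ?_))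
    (by positivity : (0 : ℝ) ≤ 2 ^ (m + 1)))
  · rw [total]; ring
  · refine Finset.sum_congr rfl fun I _ => ?_
    have h0 : 0 ≤ facetWeight v I := Finset.sum_nonneg fun i _ => abs_nonneg _
    rw [hsmul, abs_inv, abs_of_nonneg h0, ← div_eq_inv_mul]

end

end Vale.Agent.P227.Zono
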