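import Vale.Agent.P227.Zono.Area

/-!
# P227: the volume of a zonotope and the logarithmic Minkowski inequality
-/

namespace Vale.Agent.P227.Zono

open MeasureTheory Set Finset
open scoped Matrix

noncomputable section

variable {n m : ℕ} {ι : Type*} [Fintype ι]

/-- The absolute determinant of the rows. -/
def D (r : Fin n → Fin n → ℝ) : ℝ := |(Matrix.of r).det|

theorem D_nonneg (r : Fin n → Fin n → ℝ) : 0 ≤ D r := abs_nonneg _

theorem D_map (T : (Fin n → ℝ) →ₗ[ℝ] Fin n → ℝ) (r : Fin n → Fin n → ℝ) :
    D (fun k => T (r k)) = |LinearMap.det T| * D r := by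
  have e : Matrix.of (fun k => T (r k)) = Matrix.of r * (LinearMap.toMatrix' T).transpose := by
    ext k j
    conv_lhs => rw [Matrix.of_apply, ← Matrix.toLin'_toMatrix' T, Matrix.toLin'_apply]
    simp [Matrix.mulVec, dotProduct, Matrix.mul_apply, mul_comm]
  rw [D, e, Matrix.det_mul, Matrix.det_transpose, LinearMap.det_toMatrix', abs_mul, mul_comm]
  rfl

theorem D_perm (σ : Equiv.Perm (Fin n)) (r : Fin n → Fin n → ℝ) : D (r ∘ σ) = D r := by
  have e : Matrix.of (r ∘ σ) = (Matrix.of r).submatrix σ id := rfl
  rw [D, e, Matrix.det_permute, abs_mul]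
  rcases Int.units_eq_one_or (Equiv.Perm.sign σ) with h | h <;> simp [h, D]

theorem D_axis (r : Fin m → Fin (m + 1) → ℝ) :
    D (Fin.cons (Pi.single 0 1) r) = D (fun k => Fin.tail (r k)) := by
  rw [D, Matrix.det_succ_row_zero, Finset.sum_eq_single (0 : Fin (m + 1))]
  · simp only [Matrix.of_apply, Fin.cons_zero, Pi.single_eq_same, Fin.val_zero, pow_zero, one_mul]
    congr 1
  · intro j _ hj
    simp [hj]
  · intro h; exact absurd (Finset.mem_univ _) h

theorem D_smul (c : Fin n → ℝ) (hc : ∀ k, 0 ≤ c k) (r : Fin n → Fin n → ℝ) :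
    D (fun k => c k • r k) = (∏ k, c k) * D r := by
  have e : Matrix.of (fun k => c k • r k) = Matrix.of fun i j => c i * Matrix.of r i j := rfl
  rw [D, e, Matrix.det_mul_column, abs_mul, abs_of_nonneg (Finset.prod_nonneg fun k _ => hc k)]
  rfl

/-- The determinant with first row `x` and rows chosen by `I`. -/
def cdet (v : ι → Fin (m + 1) → ℝ) (I : Fin m → ι) (x : Fin (m + 1) → ℝ) : ℝ :=
  D (Fin.cons x fun k => v (I k))

theorem facetWeight_eq (v : ι → Fin (m + 1) → ℝ) (I : Fin m → ι) :
    facetWeight v I = ∑ i, cdet v I (v i) := rfl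

theorem cdet_eq (v : ι → Fin (m + 1) → ℝ) (I : Fin m → ι) (x : Fin (m + 1) → ℝ) :
    cdet v I x = |normalVec v I ⬝ᵥ x| := by
  unfold cdet D normalVec dotProduct
  congr 1
  set M := Matrix.of (Fin.cons x fun k => v (I k))
  have e : ∀ y, M.updateRow 0 y = Matrix.of (Fin.cons y fun k => v (I k)) := fun y => by
    ext i j
    refine Fin.cases ?_ (fun k => ?_) i <;> simp [M, Matrix.updateRow_apply, Fin.succ_ne_zero]
  have hM : M = M.updateRow 0 (∑ j, x j • Pi.single j (1 : ℝ)) := by
    rw [← pi_eq_sum_univ' x, e]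
  conv_lhs => rw [hM]
  simp only [← e]
  clear hM
  induction (Finset.univ : Finset (Fin (m + 1))) using Finset.induction with
  | empty =>
    rw [Finset.sum_empty, Finset.sum_empty]
    exact Matrix.det_eq_zero_of_row_eq_zero 0 fun j => by simp
  | insert a s ha ih =>
    rw [Finset.sum_insert ha, Finset.sum_insert ha, Matrix.det_updateRow_add,
      Matrix.det_updateRow_smul, ih, mul_comm]

/-- The determinant of one step down. -/
theorem cdet_cons {v : ι → Fin (m + 1 + 1) → ℝ} {i : ι}
    {T : (Fin (m + 1 + 1) → ℝ) →ₗ[ℝ] Fin (m + 1 + 1) → ℝ} (hT : T (v i) = Pi.single 0 1)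
    (I : Fin m → ι) (x : Fin (m + 1 + 1) → ℝ) :
    |LinearMap.det T| * cdet v (Fin.cons i I) x
      = cdet (fun j => Fin.tail (T (v j))) I (Fin.tail (T x)) := by
  set r : Fin (m + 1 + 1) → Fin (m + 1 + 1) → ℝ :=
    Fin.cons (v i) (Fin.cons x fun k => v (I k))
  have hsw : (Fin.cons x fun k => v ((Fin.cons i I : Fin (m + 1) → ι) k) :
      Fin (m + 1 + 1) → Fin (m + 1 + 1) → ℝ) = r ∘ Equiv.swap 0 1 := by
    funext k
    refine Fin.cases ?_ (fun k => Fin.cases ?_ (fun k => ?_) k) k
    · simp only [Function.comp_apply, Equiv.swap_apply_left, Fin.cons_zero]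
      rfl
    · simp only [Function.comp_apply, Fin.succ_zero_eq_one, Equiv.swap_apply_right]
      rfl
    · rw [Function.comp_apply, Equiv.swap_apply_of_ne_of_ne (Fin.succ_ne_zero _)
        (by rw [← Fin.succ_zero_eq_one]; exact fun h => Fin.succ_ne_zero _ (Fin.succ_injective _ h))]
      rfl
  rw [cdet, hsw, D_perm, ← D_map]
  have e : (fun k => T (r k)) = Fin.cons (Pi.single 0 1) (Fin.cons (T x) fun k => T (v (I k))) := by
    funext k
    refine Fin.cases ?_ (fun k => Fin.cases ?_ (fun k => ?_) k) k <;> simp [r, hT]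
  rw [e, D_axis, cdet]
  congr 1
  funext k
  refine Fin.cases ?_ (fun k => ?_) k <;> simp

/-- The sum of all the weights. -/
def total (v : ι → Fin (m + 1) → ℝ) : ℝ := ∑ I : Fin m → ι, facetWeight v I

/-- The weight attached to one generator. -/
def part (v : ι → Fin (m + 1) → ℝ) (i : ι) : ℝ := ∑ I : Fin m → ι, cdet v I (v i)

theorem total_eq_sum_part (v : ι → Fin (m + 1) → ℝ) : total v = ∑ i, part v i := by
  simp only [total, part, facetWeight_eq]
  exact Finset.sum_comm

theorem sum_tuples (v : ι → Fin (m + 1) → ℝ) (s : ι → ℝ) :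
    ∑ J : Fin (m + 1) → ι, D (fun k => v (J k)) * s (J 0) = ∑ i, part v i * s i := by
  rw [← (Fin.consEquiv fun _ : Fin (m + 1) => ι).sum_comp, Fintype.sum_prod_type]
  refine Finset.sum_congr rfl fun i _ => ?_
  rw [part, Finset.sum_mul]
  refine Finset.sum_congr rfl fun I _ => ?_
  simp only [Fin.consEquiv_apply, Fin.cons_zero, cdet]
  congr 2
  funext k
  refine Fin.cases ?_ (fun k => ?_) k <;> simp

theorem total_eq_tuples (v : ι → Fin (m + 1) → ℝ) :
    total v = ∑ J : Fin (m + 1) → ι, D (fun k => v (J k)) := by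
  rw [total_eq_sum_part]
  simpa using (sum_tuples v fun _ => 1).symm

theorem part_zero {v : ι → Fin (m + 1) → ℝ} {i : ι} (hi : v i = 0) : part v i = 0 :=
  Finset.sum_eq_zero fun I _ => by
    rw [cdet, D, Matrix.det_eq_zero_of_row_eq_zero (0 : Fin (m + 1)) fun j => by simp [hi],
      abs_zero]

theorem part_eq {v : ι → Fin (m + 1 + 1) → ℝ} {i : ι}
    {T : (Fin (m + 1 + 1) → ℝ) →ₗ[ℝ] Fin (m + 1 + 1) → ℝ} (hT : T (v i) = Pi.single 0 1)
    (hdet : LinearMap.det T ≠ 0) :
    ∑ I : Fin m → ι, facetWeight v (Fin.cons i I) = part v i ∧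
    |LinearMap.det T| * part v i = total (fun j => Fin.tail (T (v j))) := by
  have e1 : part v i = ∑ J : Fin (m + 1) → ι, D (fun k : Fin (m + 1 + 1) =>
      v ((Fin.cons i J : Fin (m + 1 + 1) → ι) k)) := by
    refine Finset.sum_congr rfl fun J _ => congrArg D (funext fun k => ?_)
    refine Fin.cases ?_ (fun k => ?_) k <;> simp
  have e2 : |LinearMap.det T| * part v i = total (fun j => Fin.tail (T (v j))) := by
    rw [e1, Finset.mul_sum, total_eq_tuples]
    refine Finset.sum_congr rfl fun J _ => ?_
    rw [← D_map]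
    have e : (fun k : Fin (m + 1 + 1) => T (v ((Fin.cons i J : Fin (m + 1 + 1) → ι) k)))
        = Fin.cons (Pi.single 0 1) fun k => T (v (J k)) := by
      funext k
      refine Fin.cases ?_ (fun k => ?_) k <;> simp [hT]
    rw [e, D_axis]
  refine ⟨?_, e2⟩
  have hd : |LinearMap.det T| * (∑ I : Fin m → ι, facetWeight v (Fin.cons i I))
      = |LinearMap.det T| * part v i := by
    rw [e2, Finset.mul_sum, total]
    refine Finset.sum_congr rfl fun I _ => ?_
    rw [facetWeight_eq, facetWeight_eq, Finset.mul_sum]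
    exact Finset.sum_congr rfl fun j _ => cdet_cons hT I _
  exact mul_left_cancel₀ (abs_ne_zero.2 hdet) hd

theorem image_zonotope {v : ι → Fin (m + 1) → ℝ}
    (T : (Fin (m + 1) → ℝ) →ₗ[ℝ] Fin (m + 1) → ℝ) :
    Fin.tail '' (T '' zonotope v) = zonotope (fun j => Fin.tail (T (v j))) := by
  rw [image_image, zonotope, image_image, zonotope]
  refine image_congr fun t _ => ?_
  funext k
  simp [Fin.tail, Finset.sum_apply]

theorem zonotope_fin_zero (v : ι → Fin 0 → ℝ) : (volume (zonotope v)).toReal = 1 := by
  rw [(Subsingleton.eq_univ_of_nonempty (s := zonotope v) ⟨0, zero_mem_zonotope v⟩)]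
  simp [volume_pi, Measure.pi_empty_univ]

/-- The volume of a zonotope. -/
theorem volume_zonotope (m : ℕ) : ∀ v : ι → Fin (m + 1) → ℝ,
    ((m + 1).factorial : ℝ) * (volume (zonotope v)).toReal = 2 ^ (m + 1) * total v := by
  induction m with
  | zero =>
    intro v
    have h := sum_area_zonotope v
    rw [total_eq_sum_part]
    simp only [Nat.cast_zero, zero_add, one_mul] at h
    rw [Nat.factorial_one, Nat.cast_one, one_mul, h, pow_one]
    congr 1
    refine Finset.sum_congr rfl fun i _ => ?_
    rcases eq_or_ne (v i) 0 with hi | hi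
    · rw [hi, area_zero, part_zero hi]
    obtain ⟨T, hT, hdet⟩ := exists_toAxis hi
    rw [area_eq hT hdet (zonotope_compact v) (zonotope_convex v), image_zonotope,
      zonotope_fin_zero]
    have h1 : part v i = D (fun _ => v i) := by
      rw [part, Fintype.sum_unique]
      exact congrArg D (funext fun k => by rw [Fin.fin_one_eq_zero k]; rfl)
    have h2 : |LinearMap.det T| * D (fun _ : Fin 1 => v i) = 1 := by
      rw [← D_map, hT]
      simp [D, Matrix.det_unique]
    rw [h1, div_eq_iff (abs_ne_zero.2 hdet), mul_comm, h2]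
  | succ m ih =>
    intro v
    have h := sum_area_zonotope v
    push_cast at h
    have key : ∀ i, ((m + 1).factorial : ℝ) * area (v i) (zonotope v)
        = 2 ^ (m + 1) * part v i := by
      intro i
      rcases eq_or_ne (v i) 0 with hi | hi
      · rw [hi, area_zero, part_zero hi, mul_zero, mul_zero]
      obtain ⟨T, hT, hdet⟩ := exists_toAxis hi
      have hd := abs_ne_zero.2 hdet
      rw [area_eq hT hdet (zonotope_compact v) (zonotope_convex v), image_zonotope, ← mul_div_assoc,
        ih, ← (part_eq hT hdet).2]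
      field_simp
    rw [total_eq_sum_part, Nat.factorial_succ, Nat.cast_mul]
    push_cast
    rw [mul_comm ((m : ℝ) + 1 + 1), mul_assoc, h, mul_left_comm, Finset.mul_sum,
      Finset.sum_congr rfl fun i _ => key i, ← Finset.mul_sum]
    ring

theorem part_pos {v : ι → Fin (m + 1) → ℝ} (hv : 0 < total v) {i : ι} (hi : v i ≠ 0) :
    0 < part v i := by
  obtain ⟨J, hJ⟩ : ∃ J : Fin (m + 1) → ι, 0 < D (fun k => v (J k)) := by
    by_contra hcon
    rw [total_eq_tuples] at hv
    exact absurd hv (not_lt.2 (Finset.sum_nonpos fun J _ => not_lt.1 fun h => hcon ⟨J, h⟩))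
  set M := Matrix.of fun k => v (J k)
  have hM : IsUnit M.det := IsUnit.mk0 _ (abs_pos.1 hJ)
  set α := v i ᵥ* M⁻¹
  have he : v i = ∑ k, α k • M k := by
    have : α ᵥ* M = v i := by rw [Matrix.vecMul_vecMul, Matrix.nonsing_inv_mul M hM, Matrix.vecMul_one]
    rw [← this, Matrix.vecMul_eq_sum]
  obtain ⟨k, hk⟩ : ∃ k, α k ≠ 0 := by
    by_contra hcon
    push Not at hcon
    exact hi (by rw [he]; simp [hcon])
  have hd : 0 < D (Function.update (fun l => v (J l)) k (v i)) := by
    refine abs_pos.2 ?_
    have e : Matrix.of (Function.update (fun l => v (J l)) k (v i))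
        = M.updateRow k (∑ l, α l • M l) := by rw [← he]; rfl
    rw [e, Matrix.det_updateRow_sum, smul_eq_mul]
    exact mul_ne_zero hk hM.ne_zero
  set J' : Fin (m + 1) → ι := Function.update J k i ∘ Equiv.swap 0 k
  have h0 : J' 0 = i := by simp [J']
  refine lt_of_lt_of_le ?_ (Finset.single_le_sum (f := fun I => cdet v I (v i))
    (fun I _ => D_nonneg _) (Finset.mem_univ (Fin.tail J')))
  have e : (Fin.cons (v i) fun l => v (Fin.tail J' l))
      = (Function.update (fun l => v (J l)) k (v i)) ∘ Equiv.swap 0 k := by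
    funext l
    rw [Function.comp_apply, ← Function.apply_update (fun _ => v) J k i (Equiv.swap 0 k l)]
    refine Fin.cases ?_ (fun l => ?_) l <;> simp [J', Fin.tail]
  rw [cdet, e, D_perm]
  exact hd

theorem supportVal_eq {L : Set (Fin n → ℝ)} (hL : Body L) (u : Fin n → ℝ) :
    (∀ x ∈ L, |u ⬝ᵥ x| ≤ supportVal L u) ∧ ∃ x ∈ L, |u ⬝ᵥ x| = supportVal L u := by
  have hc : Continuous fun x : Fin n → ℝ => u ⬝ᵥ x :=
    continuous_finsetSum _ fun i _ => continuous_const.mul (continuous_apply i)
  have hle : ∀ x ∈ L, u ⬝ᵥ x ≤ supportVal L u := fun x hx =>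
    le_csSup (hL.compact.image hc).bddAbove ⟨x, hx, rfl⟩
  have habs : ∀ x ∈ L, |u ⬝ᵥ x| ≤ supportVal L u := fun x hx =>
    abs_le'.2 ⟨hle x hx, by rw [← dotProduct_neg]; exact hle _ (hL.neg_mem x hx)⟩
  refine ⟨habs, ?_⟩
  obtain ⟨x, hx, he⟩ := (hL.compact.image hc).sSup_mem (hL.interior_nonempty.mono interior_subset
    |>.image _)
  exact ⟨x, hx, le_antisymm (habs x hx) (he.symm.le.trans (le_abs_self _))⟩

theorem Body.image_tail {L : Set (Fin (m + 1 + 1) → ℝ)} (hL : Body L)
    {T : (Fin (m + 1 + 1) → ℝ) →ₗ[ℝ] Fin (m + 1 + 1) → ℝ} (hdet : LinearMap.det T ≠ 0) :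
    Body (Fin.tail '' (T '' L)) := by
  let P : (Fin (m + 1 + 1) → ℝ) →ₗ[ℝ] Fin (m + 1) → ℝ :=
    (LinearMap.funLeft ℝ ℝ Fin.succ) ∘ₗ T
  have e : Fin.tail '' (T '' L) = P '' L := by rw [image_image]; rfl
  rw [e]
  have hsurj : Function.Surjective P := by
    intro y
    obtain ⟨x, hx⟩ := (LinearMap.equivOfDetNeZero T hdet).surjective (Fin.cons 0 y)
    exact ⟨x, by
      show Fin.tail (T x) = y
      rw [show T x = Fin.cons 0 y from hx, Fin.tail_cons]⟩
  refine ⟨hL.compact.image P.continuous_of_finiteDimensional, hL.convex.linear_image P, ?_, ?_⟩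
  · exact (hL.interior_nonempty.image P).mono
      ((P.isOpenMap_of_finiteDimensional hsurj).image_interior_subset L)
  · rintro - ⟨x, hx, rfl⟩
    exact ⟨-x, hL.neg_mem x hx, map_neg P x⟩

theorem total_pos_iff (v : ι → Fin (m + 1) → ℝ) :
    0 < (volume (zonotope v)).toReal ↔ 0 < total v := by
  have h := volume_zonotope m v
  constructor <;> intro hp
  · by_contra hn
    nlinarith [mul_pos (show (0 : ℝ) < (m + 1).factorial by positivity) hp,
      show (0 : ℝ) < 2 ^ (m + 1) by positivity]
  · by_contra hn
    nlinarith [mul_pos (show (0 : ℝ) < 2 ^ (m + 1) by positivity) hp,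
      show (0 : ℝ) < (m + 1).factorial by positivity]

/-- Log-convexity of the zonotope volume in the logarithms of the weights. -/
theorem jensen {v : ι → Fin (m + 1) → ℝ} (hv : 0 < total v) (s : ι → ℝ) :
    total v * Real.exp ((m + 1 : ℝ) * (∑ i, part v i * s i) / total v)
      ≤ total (fun i => Real.exp (s i) • v i) := by
  rw [total_eq_tuples (fun i => Real.exp (s i) • v i)]
  set a := (m + 1 : ℝ) * (∑ i, part v i * s i) / total v
  have hk : ∀ k : Fin (m + 1), ∑ J : Fin (m + 1) → ι, D (fun l => v (J l)) * s (J k)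
      = ∑ i, part v i * s i := by
    intro k
    rw [← sum_tuples, ← (Equiv.arrowCongr (Equiv.swap 0 k) (Equiv.refl ι)).sum_comp]
    refine Finset.sum_congr rfl fun J _ => ?_
    congr 1
    · exact D_perm (Equiv.swap 0 k) (fun l => v (J l))
    · simp [Equiv.arrowCongr]
  have hS : ∑ J : Fin (m + 1) → ι, D (fun l => v (J l)) * ∑ k, s (J k) = a * total v := by
    simp only [Finset.mul_sum]
    rw [Finset.sum_comm, Finset.sum_congr rfl fun k _ => hk k, Finset.sum_const, Finset.card_univ,
      Fintype.card_fin, nsmul_eq_mul, div_mul_cancel₀ _ hv.ne']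
    push_cast
    ring
  calc total v * Real.exp a
      = ∑ J : Fin (m + 1) → ι, D (fun l => v (J l)) * ((1 - a + ∑ k, s (J k)) * Real.exp a) := by
        simp only [← mul_assoc, mul_add, ← Finset.sum_mul, Finset.sum_add_distrib, hS,
          ← total_eq_tuples]
        ring
    _ ≤ _ := Finset.sum_le_sum fun J _ => by
        rw [D_smul _ (fun k => (Real.exp_pos _).le), ← Real.exp_sum, mul_comm (Real.exp _)]
        refine mul_le_mul_of_nonneg_left ?_ (D_nonneg _)
        have := Real.add_one_le_exp (∑ k, s (J k) - a)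
        calc (1 - a + ∑ k, s (J k)) * Real.exp a
            ≤ Real.exp (∑ k, s (J k) - a) * Real.exp a :=
              mul_le_mul_of_nonneg_right (by linarith) (Real.exp_pos _).le
          _ = _ := by rw [← Real.exp_add]; ring_nf

/-- The logarithmic Minkowski inequality for zonotopes. -/
theorem log_minkowski (m : ℕ) : ∀ (v : ι → Fin (m + 1) → ℝ) (L : Set (Fin (m + 1) → ℝ)),
    Body L → 0 < (volume (zonotope v)).toReal → LogMinkowskiAt v L := by
  induction m with
  | zero =>
    intro v L hL hv
    have hG := (total_pos_iff v).1 hv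
    have hZ := volume_zonotope 0 v
    simp only [Nat.factorial_one, Nat.cast_one, one_mul, zero_add, pow_one] at hZ
    unfold LogMinkowskiAt
    rw [Fintype.sum_unique, Fintype.sum_unique]
    have hG' : total v = facetWeight v default := Fintype.sum_unique _
    rw [← hG', hZ]
    set u := normalVec v (default : Fin 0 → ι)
    obtain ⟨h1, -⟩ := supportVal_eq hL u
    have hu : ∀ x : Fin 1 → ℝ, u ⬝ᵥ x = x 0 := fun x => by
      simp [u, normalVec, dotProduct, Matrix.det_unique]
    set h := supportVal L u
    have hvol : (volume L).toReal ≤ 2 * h := by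
      have hsub : L ⊆ Set.Icc (fun _ => -h) (fun _ => h) := fun x hx => by
        have := h1 x hx
        rw [hu] at this
        constructor <;> intro k <;> rw [Fin.fin_one_eq_zero k] <;>
          linarith [(abs_le.1 this).1, (abs_le.1 this).2]
      have h0 : 0 ≤ h := by
        obtain ⟨x, hx⟩ := hL.interior_nonempty
        exact (abs_nonneg _).trans (h1 x (interior_subset hx))
      refine (ENNReal.toReal_mono (isCompact_Icc.measure_lt_top.ne) (measure_mono hsub)).trans ?_
      rw [Real.volume_Icc_pi_toReal (fun k => by linarith)]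
      simp
      linarith
    rw [Nat.cast_zero, zero_add, div_one]
    refine mul_le_mul_of_nonneg_left ?_ hG.le
    refine Real.log_le_log (div_pos hL.volume_pos (by linarith)) ?_
    rw [div_le_div_iff₀ (by linarith) hG]
    nlinarith
  | succ m ih =>
    intro v L hL hv
    have hG := (total_pos_iff v).1 hv
    have hZ := sum_area_zonotope v
    have hcz := zonotope_compact v
    have hvz := zonotope_convex v
    push_cast at hZ
    set aL := fun i => area (v i) L
    set aZ := fun i => area (v i) (zonotope v)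
    have key : ∀ i, (v i ≠ 0 → 0 < aL i ∧ 0 < aZ i) ∧
        part v i / (m + 1) * Real.log (aL i / aZ i) ≤ ∑ I : Fin m → ι,
          facetWeight v (Fin.cons i I) *
            Real.log (supportVal L (normalVec v (Fin.cons i I)) / facetWeight v (Fin.cons i I)) := by
      intro i
      rcases eq_or_ne (v i) 0 with hi | hi
      · refine ⟨fun h => absurd hi h, ?_⟩
        have hz : ∀ I : Fin m → ι, facetWeight v (Fin.cons i I) = 0 := fun I =>
          Finset.sum_eq_zero fun j _ => by
            rw [Matrix.det_eq_zero_of_row_eq_zero (1 : Fin (m + 1 + 1)) fun k => by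
              rw [← Fin.succ_zero_eq_one]; simp [hi], abs_zero]
        simp [hz, part_zero hi]
      obtain ⟨T, hT, hdet⟩ := exists_toAxis hi
      have hd : 0 < |LinearMap.det T| := abs_pos.2 hdet
      set w := fun j => Fin.tail (T (v j))
      obtain ⟨e1, e2⟩ := part_eq hT hdet
      have hw : 0 < total w := by rw [← e2]; exact mul_pos hd (part_pos hG hi)
      have hwz := (total_pos_iff w).2 hw
      have hPL := hL.image_tail hdet
      have eL := area_eq hT hdet hL.compact hL.convex
      have eZ := area_eq hT hdet hcz hvz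
      rw [image_zonotope] at eZ
      refine ⟨fun _ => ⟨?_, ?_⟩, ?_⟩
      · simp only [aL, eL]; exact div_pos hPL.volume_pos hd
      · simp only [aZ, eZ]; exact div_pos hwz hd
      have h := ih w _ hPL hwz
      have hsup : ∀ I : Fin m → ι, supportVal (Fin.tail '' (T '' L)) (normalVec w I)
          = |LinearMap.det T| * supportVal L (normalVec v (Fin.cons i I)) := by
        intro I
        have hc : ∀ x, |normalVec w I ⬝ᵥ Fin.tail (T x)|
            = |LinearMap.det T| * |normalVec v (Fin.cons i I) ⬝ᵥ x| := fun x => by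
          rw [← cdet_eq, ← cdet_eq, cdet_cons hT]
        obtain ⟨a1, x, hx, a2⟩ := supportVal_eq hPL (normalVec w I)
        obtain ⟨b1, y, hy, b2⟩ := supportVal_eq hL (normalVec v (Fin.cons i I))
        obtain ⟨-, ⟨x, hx, rfl⟩, rfl⟩ := hx
        refine le_antisymm ?_ ?_
        · rw [← a2, hc]; exact mul_le_mul_of_nonneg_left (b1 x hx) hd.le
        · rw [← b2, ← hc]; exact a1 _ (mem_image_of_mem _ (mem_image_of_mem _ hy))
      have hfw : ∀ I : Fin m → ι, facetWeight w I
          = |LinearMap.det T| * facetWeight v (Fin.cons i I) := fun I => by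
        rw [facetWeight_eq, facetWeight_eq, Finset.mul_sum]
        exact Finset.sum_congr rfl fun j _ => (cdet_cons hT I _).symm
      unfold LogMinkowskiAt at h
      simp only [hsup, hfw, mul_div_mul_left _ _ hd.ne', mul_assoc, ← Finset.mul_sum, e1] at h
      have e3 : aL i / aZ i
          = (volume (Fin.tail '' (T '' L))).toReal / (volume (zonotope w)).toReal := by
        simp only [aL, aZ, eL, eZ]
        exact div_div_div_cancel_right₀ hd.ne' _ _
      rw [e3]
      refine le_of_mul_le_mul_left ?_ hd
      calc |LinearMap.det T| * (part v i / (m + 1) * _) = _ := by ring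
        _ ≤ _ := h
    set r := (volume L).toReal / (volume (zonotope v)).toReal
    have hr : 0 < r := div_pos hL.volume_pos hv
    classical
    set s : ι → ℝ := fun i => if v i = 0 then 0 else Real.log (aZ i / aL i) + Real.log r
    have hs : ∀ i, Real.exp (s i) * aL i = r * aZ i := by
      intro i
      by_cases hi : v i = 0
      · simp [aL, aZ, hi, area_zero]
      · obtain ⟨h1, h2⟩ := (key i).1 hi
        simp only [s, if_neg hi]
        rw [Real.exp_add, Real.exp_log (div_pos h2 h1), Real.exp_log hr]
        field_simp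
    set v' := fun i => Real.exp (s i) • v i
    have hj := jensen hG s
    have hG' : 0 < total v' := lt_of_lt_of_le (mul_pos hG (Real.exp_pos _)) hj
    have hv' := (total_pos_iff v').2 hG'
    have hmk := minkowski_log hL v' hv'
    have e : 2 * ∑ i, area (v' i) L = ((m : ℝ) + 1 + 1) * (volume L).toReal := by
      simp only [v', area_smul hL.compact hL.convex (Real.exp_pos _).le]
      rw [Finset.sum_congr rfl fun i _ => hs i, ← Finset.mul_sum, ← mul_left_comm r,
        ← hZ, mul_left_comm, div_mul_cancel₀ _ hv.ne']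
    push_cast at hmk
    rw [e] at hmk
    have hlog : Real.log ((volume (zonotope v')).toReal / (volume L).toReal) ≤ 0 := by
      by_contra hn
      nlinarith [mul_pos hL.volume_pos (not_le.1 hn)]
    have hV := volume_zonotope (m + 1) v
    have hV' := volume_zonotope (m + 1) v'
    have hle : (volume (zonotope v)).toReal
        * Real.exp (((m : ℝ) + 1 + 1) * (∑ i, part v i * s i) / total v)
        ≤ (volume (zonotope v')).toReal := by
      refine le_of_mul_le_mul_left (a := ((m + 1 + 1).factorial : ℝ)) ?_ (by positivity)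
      rw [← mul_assoc, hV, hV', mul_assoc]
      push_cast at hj
      exact mul_le_mul_of_nonneg_left hj (by positivity)
    have hlog2 : Real.log (volume (zonotope v)).toReal
        + ((m : ℝ) + 1 + 1) * (∑ i, part v i * s i) / total v ≤ Real.log (volume L).toReal := by
      rw [Real.log_div hv'.ne' hL.volume_pos.ne', sub_nonpos] at hlog
      refine le_trans ?_ hlog
      refine le_trans (le_of_eq ?_) (Real.log_le_log (by positivity) hle)
      rw [Real.log_mul hv.ne' (Real.exp_pos _).ne', Real.log_exp]
    have hsum : ∑ i, part v i * s i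
        = total v * Real.log r - ∑ i, part v i * Real.log (aL i / aZ i) := by
      rw [total_eq_sum_part, Finset.sum_mul, ← Finset.sum_sub_distrib]
      refine Finset.sum_congr rfl fun i _ => ?_
      by_cases hi : v i = 0
      · simp [part_zero hi]
      · obtain ⟨h1, h2⟩ := (key i).1 hi
        simp only [s, if_neg hi]
        rw [Real.log_div h2.ne' h1.ne', Real.log_div h1.ne' h2.ne']
        ring
    have hmain : ((m : ℝ) + 1) / ((m : ℝ) + 1 + 1) * total v * Real.log r
        ≤ ∑ i, part v i * Real.log (aL i / aZ i) := by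
      rw [hsum] at hlog2
      have hR : Real.log r = Real.log (volume L).toReal - Real.log (volume (zonotope v)).toReal :=
        Real.log_div hL.volume_pos.ne' hv.ne'
      field_simp at hlog2 ⊢
      nlinarith
    unfold LogMinkowskiAt
    rw [← (Fin.consEquiv fun _ : Fin (m + 1) => ι).sum_comp
      (fun I => facetWeight v I * Real.log (supportVal L (normalVec v I) / facetWeight v I)),
      Fintype.sum_prod_type]
    refine le_trans ?_ (Finset.sum_le_sum fun i _ => (key i).2)
    push_cast
    simp only [div_mul_eq_mul_div, ← Finset.sum_div]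
    rw [le_div_iff₀ (by positivity)]
    refine le_trans (le_of_eq ?_) hmain
    rw [total]
    ring

end

end Vale.Agent.P227.Zono
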