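import Mathlib

/-!
# P227: the notions of the statement
-/

namespace Vale.Agent.P227.Zono

open MeasureTheory Set
open scoped Pointwise

noncomputable section

variable {n : ℕ}

/-- An origin-symmetric convex body. -/
structure Body (K : Set (Fin n → ℝ)) : Prop where
  compact : IsCompact K
  convex : Convex ℝ K
  interior_nonempty : (interior K).Nonempty
  neg_mem : ∀ x ∈ K, -x ∈ K

/-- The support function. -/
def supportVal (K : Set (Fin n → ℝ)) (u : Fin n → ℝ) : ℝ := sSup ((fun x => u ⬝ᵥ x) '' K)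

/-- The logarithmic combination: the Wulff body of `h_K ^ (1 - l) * h_L ^ l`. -/
def logComb (l : ℝ) (K L : Set (Fin n → ℝ)) : Set (Fin n → ℝ) :=
  {x | ∀ u, u ⬝ᵥ x ≤ supportVal K u ^ (1 - l) * supportVal L u ^ l}

/-- The zonotope `∑ i, [-v i, v i]`. -/
def zonotope {ι : Type*} [Fintype ι] (v : ι → Fin n → ℝ) : Set (Fin n → ℝ) :=
  (fun t : ι → ℝ => ∑ i, t i • v i) '' {t | ∀ i, |t i| ≤ 1}

/-- A zonoid: a body approximated arbitrarily well by zonotopes. -/
def IsZonoid (K : Set (Fin n → ℝ)) : Prop :=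
  ∀ ε : ℝ, 0 < ε → ∃ (N : ℕ) (v : Fin N → Fin n → ℝ),
    zonotope v ⊆ (1 + ε) • K ∧ K ⊆ (1 + ε) • zonotope v

/-- The gradient of the gauge: the outer normal at the radial projection of `x`, scaled so that the
support function takes the value `1` there. -/
def normalAt (K : Set (Fin n → ℝ)) (x : Fin n → ℝ) (j : Fin n) : ℝ :=
  fderiv ℝ (gauge K) x (Pi.single j 1)

end

end Vale.Agent.P227.Zono
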