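import Vale.Agent.P227.Zono.Gauge

/-!
# P227: support functions of symmetric bodies
-/

namespace Vale.Agent.P227.Zono

open MeasureTheory Set Finset

noncomputable section

variable {n m : ℕ} {K L : Set (Fin n → ℝ)}

theorem Body.continuous_supportVal (hK : Body K) : Continuous (supportVal K) :=
  hK.compact.continuous_sSup (f := fun u x => u ⬝ᵥ x)
    (show Continuous fun p : (Fin n → ℝ) × (Fin n → ℝ) => ∑ i, p.1 i * p.2 i from
      continuous_finsetSum _ fun i _ => by fun_prop)

theorem Body.supportVal_smul (hK : Body K) (a : ℝ) (u : Fin n → ℝ) :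
    supportVal K (a • u) = |a| * supportVal K u := by
  obtain ⟨h1, x, hx, h2⟩ := supportVal_eq hK u
  obtain ⟨h3, y, hy, h4⟩ := supportVal_eq hK (a • u)
  have e : ∀ z, |(a • u) ⬝ᵥ z| = |a| * |u ⬝ᵥ z| := fun z => by
    rw [smul_dotProduct, smul_eq_mul, abs_mul]
  refine le_antisymm ?_ ?_
  · rw [← h4, e]; exact mul_le_mul_of_nonneg_left (h1 y hy) (abs_nonneg _)
  · rw [← h2, ← e]; exact h3 x hx

theorem Body.exists_box (hK : Body K) : ∃ r : ℝ, 0 < r ∧
    Metric.closedBall (0 : Fin n → ℝ) r ⊆ K := by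
  obtain ⟨r, hr, hb⟩ := Metric.mem_nhds_iff.1 (mem_interior_iff_mem_nhds.1 hK.zero_interior)
  exact ⟨r / 2, by positivity, (Metric.closedBall_subset_ball (by linarith)).trans hb⟩

theorem dot_le_supportVal (hK : Body K) {r : ℝ} (hr : 0 ≤ r)
    (hb : Metric.closedBall (0 : Fin n → ℝ) r ⊆ K) (u : Fin n → ℝ) :
    r * ∑ i, |u i| ≤ supportVal K u := by
  set x : Fin n → ℝ := fun i => if 0 ≤ u i then r else -r
  have hx : x ∈ K := hb (by
    rw [mem_closedBall_zero_iff, pi_norm_le_iff_of_nonneg hr]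
    intro i
    simp only [x]
    split_ifs <;> simp [abs_of_nonneg hr])
  refine le_trans (le_of_eq ?_) ((le_abs_self _).trans ((supportVal_eq hK u).1 x hx))
  rw [Finset.mul_sum]
  refine Finset.sum_congr rfl fun i _ => ?_
  simp only [x]
  split_ifs with h
  · rw [abs_of_nonneg h, mul_comm]
  · rw [abs_of_neg (not_le.1 h)]; ring

theorem Body.supportVal_pos (hK : Body K) {u : Fin n → ℝ} (hu : u ≠ 0) : 0 < supportVal K u := by
  obtain ⟨r, hr, hb⟩ := hK.exists_box
  obtain ⟨i, hi⟩ := Function.ne_iff.1 hu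
  refine lt_of_lt_of_le (mul_pos hr ?_) (dot_le_supportVal hK hr.le hb u)
  exact lt_of_lt_of_le (abs_pos.2 hi) (Finset.single_le_sum (f := fun i => |u i|)
    (fun j _ => abs_nonneg _) (Finset.mem_univ i))

theorem Body.supportVal_nonneg (hK : Body K) (u : Fin n → ℝ) : 0 ≤ supportVal K u := by
  obtain ⟨h, -⟩ := supportVal_eq hK u
  obtain ⟨x, hx⟩ := hK.interior_nonempty
  exact (abs_nonneg _).trans (h x (interior_subset hx))

end

end Vale.Agent.P227.Zono
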