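import Vale.Agent.P227.Zono.Support

/-!
# P227: zonoids
-/

namespace Vale.Agent.P227.Zono

open MeasureTheory Set Filter Topology
open scoped Pointwise ENNReal

noncomputable section

variable {m : ℕ} {K L : Set (Fin (m + 1) → ℝ)}

theorem gauge_le_mul {A B : Set (Fin (m + 1) → ℝ)} (hA : Body A) (hB : Body B) {c : ℝ} (hc : 0 < c)
    (h : A ⊆ c • B) (z : Fin (m + 1) → ℝ) : gauge B z ≤ c * gauge A z := by
  rcases eq_or_ne z 0 with rfl | hz
  · simp
  have hp := hA.gauge_pos' hz
  obtain ⟨w, hw, he⟩ := h (hA.inv_smul_mem z)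
  have hz' : z = (gauge A z * c) • w := by
    rw [mul_smul, show c • w = _ from he, smul_smul, mul_inv_cancel₀ hp.ne', one_smul]
  calc gauge B z = gauge A z * c * gauge B w := by
        conv_lhs => rw [hz']
        rw [hB.gauge_smul (by positivity)]
    _ ≤ gauge A z * c * 1 := mul_le_mul_of_nonneg_left (hB.gauge_le_one.2 hw) (by positivity)
    _ = _ := by ring

theorem abs_log_supportVal_le (hK : Body K) (hL : Body L) : ∃ B : ℝ, ∀ (Z : Set (Fin (m + 1) → ℝ)),
    Body Z → Z ⊆ (2 : ℝ) • K → K ⊆ (2 : ℝ) • Z → ∀ x, x ≠ 0 →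
      DifferentiableAt ℝ (gauge Z) x → |Real.log (supportVal L (normalAt Z x))| ≤ B := by
  obtain ⟨R, hR, hKR⟩ := hK.compact.isBounded.exists_pos_norm_le
  obtain ⟨R', hR', hLR⟩ := hL.compact.isBounded.exists_pos_norm_le
  obtain ⟨r, hr, hrb⟩ := hL.exists_box
  set M := ∑ j : Fin (m + 1), (2 * gauge K (Pi.single j 1))
  set lo := r * (1 / (2 * R))
  set hi := R' * M + 1
  refine ⟨|Real.log lo| + |Real.log hi|, fun Z hZ h1 h2 x hx hd => ?_⟩
  set u := normalAt Z x
  have hgZ : ∀ z, gauge Z z ≤ 2 * gauge K z := gauge_le_mul hK hZ two_pos h2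
  have hgK : ∀ z, gauge K z ≤ 2 * gauge Z z := gauge_le_mul hZ hK two_pos h1
  have hu : ∀ j, |u j| ≤ 2 * gauge K (Pi.single j 1) := fun j => by
    have e : u ⬝ᵥ Pi.single j 1 = u j := by rw [dotProduct_single, mul_one]
    refine abs_le'.2 ⟨?_, ?_⟩
    · exact e ▸ (hZ.dot_le_gauge hd _).trans (hgZ _)
    · rw [← e, ← dotProduct_neg, ← gauge_neg hK.neg_mem]
      exact (hZ.dot_le_gauge hd _).trans (hgZ _)
  have hS1 : 1 / (2 * R) ≤ ∑ j, |u j| := by
    have h3 : gauge Z x ≤ (∑ j, |u j|) * ‖x‖ := by
      rw [← hZ.dot_self hd, Finset.sum_mul]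
      refine Finset.sum_le_sum fun j _ => (le_abs_self _).trans ?_
      rw [abs_mul]
      exact mul_le_mul_of_nonneg_left (by simpa using norm_le_pi_norm x j) (abs_nonneg _)
    have h4 : ‖x‖ / R ≤ gauge K x := le_gauge_of_subset_closedBall
      (absorbent_nhds_zero hK.nhds) hR.le fun z hz => by simpa using hKR z hz
    have h5 := hgK x
    have hxn := norm_pos_iff.2 hx
    rw [div_le_iff₀ hR] at h4
    rw [div_le_iff₀ (by positivity)]
    refine le_of_mul_le_mul_left ?_ hxn
    nlinarith [mul_le_mul_of_nonneg_right h5 hR.le, mul_le_mul_of_nonneg_right h3 hR.le]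
  have hlo : lo ≤ supportVal L u :=
    (mul_le_mul_of_nonneg_left hS1 hr.le).trans (dot_le_supportVal hL hr.le hrb u)
  have hlo0 : 0 < lo := by positivity
  have hhi : supportVal L u ≤ hi := by
    obtain ⟨-, y, hy, he⟩ := supportVal_eq hL u
    rw [← he]
    refine (Finset.abs_sum_le_sum_abs _ _).trans ?_
    calc ∑ j, |u j * y j| ≤ ∑ j, 2 * gauge K (Pi.single j 1) * R' :=
          Finset.sum_le_sum fun j _ => by
            rw [abs_mul]
            exact mul_le_mul (hu j) ((by simpa using norm_le_pi_norm y j : |y j| ≤ ‖y‖).trans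
              (hLR y hy)) (abs_nonneg _) ((abs_nonneg _).trans (hu j))
      _ = R' * M := by rw [← Finset.sum_mul, mul_comm]
      _ ≤ hi := le_add_of_nonneg_right zero_le_one
  have l1 := Real.log_le_log hlo0 hlo
  have l2 := Real.log_le_log (hlo0.trans_le hlo) hhi
  rw [abs_le]
  constructor
  · linarith [neg_abs_le (Real.log lo), abs_nonneg (Real.log hi)]
  · linarith [le_abs_self (Real.log hi), abs_nonneg (Real.log lo)]

/-- The logarithmic Minkowski inequality for zonoids. -/
theorem zonoid_log_minkowski (hK : Body K) (hz : IsZonoid K) (hL : Body L) :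
    IntegrableOn (fun x => Real.log (supportVal L (normalAt K x))) K ∧
    (volume K).toReal / (m + 1) * Real.log ((volume L).toReal / (volume K).toReal)
      ≤ ∫ x in K, Real.log (supportVal L (normalAt K x)) := by
  set ε : ℕ → ℝ := fun k => 1 / ((k : ℝ) + 1)
  have hε0 : ∀ k, 0 < ε k := fun k => by positivity
  have hε1 : ∀ k, ε k ≤ 1 := fun k => (div_le_one₀ (by positivity)).2 (by simp)
  have hεlim : Tendsto (fun k => 1 + ε k) atTop (𝓝 1) := by
    simpa [ε, one_div] using tendsto_one_div_add_atTop_nhds_zero_nat.const_add (1 : ℝ)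
  choose N v hv1 hv2 using fun k => hz (ε k) (hε0 k)
  set Z := fun k => zonotope (v k)
  have hvol : ∀ (A B : Set (Fin (m + 1) → ℝ)) (k : ℕ), IsCompact B → A ⊆ (1 + ε k) • B →
      (volume A).toReal ≤ (1 + ε k) ^ (m + 1) * (volume B).toReal := fun A B k hB h => by
    refine (ENNReal.toReal_mono (hB.smul (1 + ε k)).measure_lt_top.ne (measure_mono h)).trans
      (le_of_eq ?_)
    have := hε0 k
    rw [Measure.addHaar_smul, Module.finrank_fin_fun, ENNReal.toReal_mul,
      ENNReal.toReal_ofReal (abs_nonneg _), abs_of_nonneg (by positivity)]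
  have hVlo := fun k => hvol K (Z k) k (zonotope_compact _) (hv2 k)
  have hVhi := fun k => hvol (Z k) K k hK.compact (hv1 k)
  have hVpos : ∀ k, 0 < (volume (Z k)).toReal := fun k => by
    by_contra h
    nlinarith [hK.volume_pos, hVlo k, pow_pos (show (0 : ℝ) < 1 + ε k by linarith [hε0 k]) (m + 1)]
  have hZb : ∀ k, Body (Z k) := fun k => zonotope_body (hVpos k)
  have hV : Tendsto (fun k => (volume (Z k)).toReal) atTop (𝓝 (volume K).toReal) := by
    refine tendsto_of_tendsto_of_tendsto_of_le_of_le
      (g := fun k => (volume K).toReal / (1 + ε k) ^ (m + 1))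
      (h := fun k => (1 + ε k) ^ (m + 1) * (volume K).toReal) ?_ ?_ (fun k => ?_) hVhi
    · have := (tendsto_const_nhds (x := (volume K).toReal) (f := atTop)).div
        (hεlim.pow (m + 1)) (by norm_num)
      simpa using! this
    · simpa using (hεlim.pow (m + 1)).mul_const (volume K).toReal
    · rw [div_le_iff₀ (by have := hε0 k; positivity), mul_comm]
      exact hVlo k
  have hgle : ∀ k z, gauge K z ≤ (1 + ε k) * gauge (Z k) z := fun k =>
    gauge_le_mul (hZb k) hK (by linarith [hε0 k]) (hv1 k)
  have hgge : ∀ k z, gauge (Z k) z ≤ (1 + ε k) * gauge K z := fun k =>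
    gauge_le_mul hK (hZb k) (by linarith [hε0 k]) (hv2 k)
  have hgl : ∀ z, Tendsto (fun k => gauge (Z k) z) atTop (𝓝 (gauge K z)) := by
    intro z
    refine tendsto_of_tendsto_of_tendsto_of_le_of_le (g := fun k => gauge K z / (1 + ε k))
      (h := fun k => (1 + ε k) * gauge K z) ?_ ?_ (fun k => ?_) fun k => hgge k z
    · have := (tendsto_const_nhds (x := gauge K z) (f := atTop)).div hεlim one_ne_zero
      simpa using! this
    · simpa using hεlim.mul_const (gauge K z)
    · rw [div_le_iff₀ (by linarith [hε0 k]), mul_comm]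
      exact hgle k z
  -- convergence of the normals
  have hlim : ∀ x, DifferentiableAt ℝ (gauge K) x → (∀ k, DifferentiableAt ℝ (gauge (Z k)) x) →
      Tendsto (fun k => normalAt (Z k) x) atTop (𝓝 (normalAt K x)) := by
    intro x hd hdk
    have hup : ∀ z, ∀ b, normalAt K x ⬝ᵥ z < b → ∀ᶠ k in atTop, normalAt (Z k) x ⬝ᵥ z < b := by
      intro z b hb
      rw [normalAt_dot] at hb
      have hs := (hd.hasFDerivAt.hasLineDerivAt z).tendsto_slope_zero_right
      obtain ⟨t, ht, htpos⟩ := ((hs.eventually (eventually_lt_nhds hb)).and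
        self_mem_nhdsWithin).exists
      replace htpos : 0 < t := htpos
      simp only [smul_eq_mul] at ht
      have hl : Tendsto (fun k => t⁻¹ * ((1 + ε k) * gauge K (x + t • z) - gauge K x / (1 + ε k)))
          atTop (𝓝 (t⁻¹ * (gauge K (x + t • z) - gauge K x))) := by
        have h1 := hεlim.mul_const (gauge K (x + t • z))
        have h2 := (tendsto_const_nhds (x := gauge K x) (f := atTop)).div hεlim one_ne_zero
        simpa using! (h1.sub h2).const_mul t⁻¹
      filter_upwards [hl.eventually (eventually_lt_nhds ht)] with k hk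
      refine lt_of_le_of_lt ?_ hk
      have a1 := ((hZb k).dot_le_gauge (hdk k) (x + t • z)).trans (hgge k _)
      rw [dotProduct_add, dotProduct_smul, smul_eq_mul, (hZb k).dot_self (hdk k)] at a1
      have a2 : gauge K x / (1 + ε k) ≤ gauge (Z k) x := by
        rw [div_le_iff₀ (by linarith [hε0 k]), mul_comm]
        exact hgle k x
      rw [le_inv_mul_iff₀ htpos]
      linarith
    refine tendsto_pi_nhds.2 fun j => tendsto_order.2 ⟨fun b hb => ?_, fun b hb => ?_⟩
    · have := hup (-Pi.single j 1) (-b) (by simpa [dotProduct_neg, dotProduct_single] using hb)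
      simpa [dotProduct_neg, dotProduct_single] using this
    · have := hup (Pi.single j 1) b (by simpa [dotProduct_single] using hb)
      simpa [dotProduct_single] using this
  obtain ⟨B, hB⟩ := abs_log_supportVal_le hK hL
  have hK2 : K ⊆ (2 : ℝ) • K := fun z hz => by
    refine ⟨(2 : ℝ)⁻¹ • z, hK.convex.smul_mem_of_zero_mem
      (interior_subset hK.zero_interior) hz ⟨by norm_num, by norm_num⟩, by simp⟩
  have hsub2 : ∀ (A : Set (Fin (m + 1) → ℝ)), Body A → ∀ k, (1 + ε k) • A ⊆ (2 : ℝ) • A := by
    intro A hA k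
    rintro - ⟨a, ha, rfl⟩
    have := hε0 k
    refine ⟨((1 + ε k) / 2) • a, hA.convex.smul_mem_of_zero_mem
      (interior_subset hA.zero_interior) ha ⟨by positivity, by linarith [hε1 k]⟩, ?_⟩
    simp [smul_smul]; field_simp
  have hmeas : ∀ A : Set (Fin (m + 1) → ℝ),
      Measurable fun x => Real.log (supportVal L (normalAt A x)) := fun A =>
    Real.measurable_log.comp (hL.continuous_supportVal.measurable.comp (measurable_normalAt A))
  have hne : ∀ᵐ x : Fin (m + 1) → ℝ, x ≠ 0 := Measure.ae_ne volume 0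
  have hdK := hK.ae_differentiable
  have hdall : ∀ᵐ x : Fin (m + 1) → ℝ, ∀ k, DifferentiableAt ℝ (gauge (Z k)) x :=
    ae_all_iff.2 fun k => (hZb k).ae_differentiable
  have hint : IntegrableOn (fun x => Real.log (supportVal L (normalAt K x))) K := by
    refine Measure.integrableOn_of_bounded (M := B) hK.compact.measure_lt_top.ne
      (hmeas K).aestronglyMeasurable ?_
    refine ae_restrict_of_ae ?_
    filter_upwards [hne, hdK] with x h1 h2
    rw [Real.norm_eq_abs]
    exact hB K hK hK2 hK2 x h1 h2
  refine ⟨hint, ?_⟩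
  have hT : Tendsto (fun k => ∫ x in Z k, Real.log (supportVal L (normalAt (Z k) x))) atTop
      (𝓝 (∫ x in K, Real.log (supportVal L (normalAt K x)))) := by
    simp only [← integral_indicator hK.compact.measurableSet,
      ← integral_indicator (zonotope_compact _).measurableSet, Z]
    refine tendsto_integral_of_dominated_convergence
      (((2 : ℝ) • K).indicator fun _ => B) (fun k => ?_) ?_ (fun k => ?_) ?_
    · exact ((hmeas _).indicator (zonotope_compact _).measurableSet).aestronglyMeasurable
    · exact (integrable_indicator_iff (hK.compact.smul (2 : ℝ)).measurableSet).2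
        (integrableOn_const (hK.compact.smul (2 : ℝ)).measure_lt_top.ne)
    · filter_upwards [hne, hdall] with x h1 h2
      by_cases hx : x ∈ Z k
      · rw [indicator_of_mem hx, indicator_of_mem ((hv1 k).trans (hsub2 K hK k) hx),
          Real.norm_eq_abs]
        exact hB _ (hZb k) ((hv1 k).trans (hsub2 K hK k))
          ((hv2 k).trans (hsub2 _ (hZb k) k)) x h1 (h2 k)
      · rw [indicator_of_notMem hx, norm_zero]
        exact indicator_nonneg (fun _ _ => le_trans (abs_nonneg _)
          (hB _ (hZb k) ((hv1 k).trans (hsub2 K hK k))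
            ((hv2 k).trans (hsub2 _ (hZb k) k)) x h1 (h2 k))) x
    · filter_upwards [hne, hdK, hdall, measure_eq_zero_iff_ae_notMem.1
        (hK.convex.addHaar_frontier volume)] with x h1 h2 h3 h4
      have hg1 : gauge K x ≠ 1 := fun h =>
        h4 ((gauge_eq_one_iff_mem_frontier hK.convex hK.nhds).1 h)
      rcases lt_or_gt_of_ne hg1 with h | h
      · have hxK : x ∈ K := hK.gauge_le_one.1 h.le
        rw [indicator_of_mem hxK]
        refine Tendsto.congr' ?_
          (((Real.continuousAt_log (hL.supportVal_pos ?_).ne').comp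
            hL.continuous_supportVal.continuousAt).tendsto.comp (hlim x h2 h3))
        · filter_upwards [(hgl x).eventually (eventually_lt_nhds h)] with k hk
          rw [indicator_of_mem ((hZb k).gauge_le_one.1 hk.le)]
          rfl
        · intro h0
          have := hK.dot_self h2
          rw [h0, zero_dotProduct] at this
          exact (hK.gauge_pos' h1).ne this
      · rw [indicator_of_notMem fun hx => h.not_ge (hK.gauge_le_one.2 hx)]
        refine tendsto_const_nhds.congr' ?_
        filter_upwards [(hgl x).eventually (eventually_gt_nhds h)] with k hk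
        rw [indicator_of_notMem fun hx => hk.not_ge ((hZb k).gauge_le_one.2 hx)]
  refine le_of_tendsto_of_tendsto' ((hV.div_const _).mul
    (((tendsto_const_nhds (x := (volume L).toReal) (f := atTop)).div hV
      hK.volume_pos.ne').log (div_pos hL.volume_pos hK.volume_pos).ne')) hT fun k =>
    log_minkowski_integral hL (hVpos k) hL.supportVal_smul

variable {l : ℝ}

/-- The Wulff function. -/
theorem logComb_body (hK : Body K) (hL : Body L) (hl0 : 0 ≤ l) (hl1 : l ≤ 1) :
    Body (logComb l K L) := by
  obtain ⟨r, hr, hrK⟩ := hK.exists_box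
  obtain ⟨r', hr', hrL⟩ := hL.exists_box
  have hcl : IsClosed (logComb l K L) := by
    rw [show logComb l K L = ⋂ u, {x | u ⬝ᵥ x ≤ supportVal K u ^ (1 - l) * supportVal L u ^ l} by
      ext x; simp [logComb]]
    exact isClosed_iInter fun u => isClosed_le
      (continuous_finsetSum _ fun i _ => continuous_const.mul (continuous_apply i)) continuous_const
  have heven : ∀ u, supportVal K (-u) ^ (1 - l) * supportVal L (-u) ^ l
      = supportVal K u ^ (1 - l) * supportVal L u ^ l := fun u => by
    rw [show -u = (-1 : ℝ) • u by simp, hK.supportVal_smul, hL.supportVal_smul]; simp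
  have hneg : ∀ x ∈ logComb l K L, -x ∈ logComb l K L := fun x hx u => by
    rw [dotProduct_neg, ← neg_dotProduct, ← heven]; exact hx (-u)
  refine ⟨?_, ?_, ?_, hneg⟩
  · refine Metric.isCompact_of_isClosed_isBounded hcl ?_
    refine (isCompact_univ_pi fun j : Fin (m + 1) => isCompact_Icc
      (a := -(supportVal K (Pi.single j 1) ^ (1 - l) * supportVal L (Pi.single j 1) ^ l))
      (b := supportVal K (Pi.single j 1) ^ (1 - l) * supportVal L (Pi.single j 1) ^ l)).isBounded
        |>.subset fun x hx j _ => ⟨?_, ?_⟩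
    · have := hneg x hx (Pi.single j 1)
      simp at this
      linarith
    · simpa using hx (Pi.single j 1)
  · intro x hx y hy a b ha hb hab u
    rw [dotProduct_add, dotProduct_smul, dotProduct_smul, smul_eq_mul, smul_eq_mul]
    calc a * u ⬝ᵥ x + b * u ⬝ᵥ y ≤ a * _ + b * _ := add_le_add
          (mul_le_mul_of_nonneg_left (hx u) ha) (mul_le_mul_of_nonneg_left (hy u) hb)
      _ = _ := by rw [← add_mul, hab, one_mul]
  · refine ⟨0, mem_interior_iff_mem_nhds.2 (mem_of_superset
      (Metric.closedBall_mem_nhds 0 (lt_min hr hr')) ?_)⟩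
    intro x hx w
    have hx' : ∀ i, |x i| ≤ min r r' := fun i => by
      have := (norm_le_pi_norm x i).trans (mem_closedBall_zero_iff.1 hx)
      simpa using this
    set S := ∑ i, |w i|
    have hS : 0 ≤ S := Finset.sum_nonneg fun i _ => abs_nonneg _
    have h1 : w ⬝ᵥ x ≤ min r r' * S := by
      rw [Finset.mul_sum]
      refine Finset.sum_le_sum fun i _ => ?_
      refine (le_abs_self _).trans ?_
      rw [abs_mul, mul_comm]
      exact mul_le_mul_of_nonneg_right (hx' i) (abs_nonneg _)
    refine h1.trans ?_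
    have hq : 0 ≤ min r r' * S := mul_nonneg (le_min hr.le hr'.le) hS
    calc min r r' * S = (min r r' * S) ^ (1 - l) * (min r r' * S) ^ l := by
          rw [← Real.rpow_add' hq (by norm_num)]; simp
      _ ≤ _ := mul_le_mul
          (Real.rpow_le_rpow hq ((mul_le_mul_of_nonneg_right (min_le_left _ _) hS).trans
            (dot_le_supportVal hK hr.le hrK w)) (by linarith))
          (Real.rpow_le_rpow hq ((mul_le_mul_of_nonneg_right (min_le_right _ _) hS).trans
            (dot_le_supportVal hL hr'.le hrL w)) hl0)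
          (Real.rpow_nonneg hq _) (Real.rpow_nonneg (hK.supportVal_nonneg w) _)

/-- At a point with a unique normal the logarithmic combination touches the Wulff function. -/
theorem normal_touch (hK : Body K) (hL : Body L) (hl0 : 0 ≤ l) (hl1 : l ≤ 1)
    {x : Fin (m + 1) → ℝ} (hx : x ≠ 0) (hd : DifferentiableAt ℝ (gauge (logComb l K L)) x) :
    supportVal K (normalAt (logComb l K L) x) ^ (1 - l) *
      supportVal L (normalAt (logComb l K L) x) ^ l ≤ 1 := by
  set C := logComb l K L with hCdef
  have hC := logComb_body hK hL hl0 hl1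
  rw [← hCdef] at hC
  set f := fun u => supportVal K u ^ (1 - l) * supportVal L u ^ l
  have hfhom : ∀ (a : ℝ) u, f (a • u) = |a| * f u := fun a u => by
    simp only [f, hK.supportVal_smul, hL.supportVal_smul,
      Real.mul_rpow (abs_nonneg a) (hK.supportVal_nonneg u),
      Real.mul_rpow (abs_nonneg a) (hL.supportVal_nonneg u)]
    rw [mul_mul_mul_comm, ← Real.rpow_add' (abs_nonneg a) (by norm_num)]
    simp
  have hfpos : ∀ u, u ≠ 0 → 0 < f u := fun u hu =>
    mul_pos (Real.rpow_pos_of_pos (hK.supportVal_pos hu) _)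
      (Real.rpow_pos_of_pos (hL.supportVal_pos hu) _)
  have hne : ∀ u : Fin (m + 1) → ℝ, u ∈ Metric.sphere 0 1 → u ≠ 0 := fun u hu h0 => by
    simp [h0] at hu
  set g := gauge C x
  have hg : 0 < g := hC.gauge_pos' hx
  set y := g⁻¹ • x
  have hgy : gauge C y = 1 := by
    rw [hC.gauge_smul (by positivity)]; exact inv_mul_cancel₀ hg.ne'
  have hcont : ContinuousOn (fun u => u ⬝ᵥ y / f u) (Metric.sphere 0 1) := by
    refine ContinuousOn.div (Continuous.continuousOn ?_) (Continuous.continuousOn ?_)
      fun u hu => (hfpos u (hne u hu)).ne'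
    · exact continuous_finsetSum _ fun i _ => (continuous_apply i).mul continuous_const
    · exact (hK.continuous_supportVal.rpow_const fun u => Or.inr (by linarith)).mul
        (hL.continuous_supportVal.rpow_const fun u => Or.inr hl0)
  obtain ⟨u, hu, hmax⟩ := (isCompact_sphere (0 : Fin (m + 1) → ℝ) 1).exists_isMaxOn
    ⟨Pi.single 0 1, by simp [Pi.norm_single]⟩ hcont
  have hu0 := hne u hu
  have htouch : f u ≤ u ⬝ᵥ y := by
    by_contra hlt
    rw [not_le, ← div_lt_one (hfpos u hu0)] at hlt
    set M := max (u ⬝ᵥ y / f u) (1 / 2)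
    have hM0 : 0 < M := lt_of_lt_of_le (by norm_num) (le_max_right _ _)
    have hM1 : M < 1 := max_lt hlt (by norm_num)
    have hmem : M⁻¹ • y ∈ C := by
      intro w
      rw [dotProduct_smul, smul_eq_mul, inv_mul_le_iff₀ hM0]
      rcases eq_or_ne w 0 with rfl | hw
      · rw [zero_dotProduct]
        exact mul_nonneg hM0.le (mul_nonneg (Real.rpow_nonneg (hK.supportVal_nonneg _) _)
          (Real.rpow_nonneg (hL.supportVal_nonneg _) _))
      have hn := norm_pos_iff.2 hw
      have hsph : ‖w‖⁻¹ • w ∈ Metric.sphere (0 : Fin (m + 1) → ℝ) 1 := by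
        simp [norm_smul, hn.ne']
      have := (isMaxOn_iff.1 hmax _ hsph).trans (le_max_left _ (1 / 2))
      rw [smul_dotProduct, smul_eq_mul, hfhom, abs_of_pos (inv_pos.2 hn),
        mul_div_mul_left _ _ (inv_ne_zero hn.ne'), div_le_iff₀ (hfpos w hw)] at this
      exact this
    have := hC.gauge_le_one.2 hmem
    rw [hC.gauge_smul (by positivity), hgy, mul_one, inv_le_one₀ hM0] at this
    linarith
  have hs : 0 < u ⬝ᵥ y := (hfpos u hu0).trans_le htouch
  set w := (u ⬝ᵥ y)⁻¹ • u
  have hwle : ∀ z, w ⬝ᵥ z ≤ gauge C z := fun z => by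
    rcases eq_or_ne z 0 with rfl | hz
    · simp
    have h1 : u ⬝ᵥ ((gauge C z)⁻¹ • z) ≤ u ⬝ᵥ y := (hC.inv_smul_mem z u).trans htouch
    rw [dotProduct_smul, smul_eq_mul, inv_mul_le_iff₀ (hC.gauge_pos' hz)] at h1
    rw [smul_dotProduct, smul_eq_mul, inv_mul_le_iff₀ hs]
    linarith
  have hwx : w ⬝ᵥ x = g := by
    have hxy : u ⬝ᵥ x = g * (u ⬝ᵥ y) := by
      rw [← smul_eq_mul, ← dotProduct_smul, show g • y = x by simp [y, smul_smul, hg.ne']]
    rw [smul_dotProduct, smul_eq_mul, hxy]
    field_simp
  rw [normalAt_eq hd hwle hwx]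
  show f w ≤ 1
  rw [hfhom, abs_of_pos (inv_pos.2 hs), inv_mul_le_iff₀ hs, mul_one]
  exact htouch

/-- The logarithmic Brunn–Minkowski inequality when the logarithmic combination is a zonoid. -/
theorem zonoid_log_brunn_minkowski (hK : Body K) (hL : Body L) (hl0 : 0 ≤ l) (hl1 : l ≤ 1)
    (hz : IsZonoid (logComb l K L)) :
    volume K ^ (1 - l) * volume L ^ l ≤ volume (logComb l K L) := by
  set C := logComb l K L with hCdef
  have hC : Body C := logComb_body hK hL hl0 hl1
  obtain ⟨iK, h1⟩ := zonoid_log_minkowski hC hz hK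
  obtain ⟨iL, h2⟩ := zonoid_log_minkowski hC hz hL
  have hsum : (1 - l) * (∫ x in C, Real.log (supportVal K (normalAt C x)))
      + l * (∫ x in C, Real.log (supportVal L (normalAt C x))) ≤ 0 := by
    rw [← integral_const_mul, ← integral_const_mul,
      ← integral_add (iK.const_mul _) (iL.const_mul _)]
    refine integral_nonpos_of_ae (ae_restrict_of_ae ?_)
    filter_upwards [Measure.ae_ne volume (0 : Fin (m + 1) → ℝ), hC.ae_differentiable] with x hx hd
    have hn : normalAt C x ≠ 0 := fun h0 => by
      have := hC.dot_self hd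
      rw [h0, zero_dotProduct] at this
      exact (hC.gauge_pos' hx).ne this
    have hk := hK.supportVal_pos hn
    have hl' := hL.supportVal_pos hn
    have h := Real.log_le_log (mul_pos (Real.rpow_pos_of_pos hk _) (Real.rpow_pos_of_pos hl' _))
      (normal_touch hK hL hl0 hl1 hx hd)
    rw [Real.log_mul (Real.rpow_pos_of_pos hk _).ne' (Real.rpow_pos_of_pos hl' _).ne',
      Real.log_rpow hk, Real.log_rpow hl', Real.log_one] at h
    exact h
  have hkey : (1 - l) * Real.log ((volume K).toReal / (volume C).toReal)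
      + l * Real.log ((volume L).toReal / (volume C).toReal) ≤ 0 := by
    have a1 := mul_le_mul_of_nonneg_left h1 (sub_nonneg.2 hl1)
    have a2 := mul_le_mul_of_nonneg_left h2 hl0
    by_contra hn
    have := mul_pos (div_pos hC.volume_pos (show (0 : ℝ) < m + 1 by positivity)) (not_le.1 hn)
    linarith
  rw [Real.log_div hK.volume_pos.ne' hC.volume_pos.ne',
    Real.log_div hL.volume_pos.ne' hC.volume_pos.ne'] at hkey
  have hne : volume K ^ (1 - l) * volume L ^ l ≠ ⊤ :=
    ENNReal.mul_ne_top (ENNReal.rpow_ne_top_of_nonneg (by linarith) hK.compact.measure_lt_top.ne)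
      (ENNReal.rpow_ne_top_of_nonneg hl0 hL.compact.measure_lt_top.ne)
  rw [← ENNReal.toReal_le_toReal hne hC.compact.measure_lt_top.ne, ENNReal.toReal_mul,
    ← ENNReal.toReal_rpow, ← ENNReal.toReal_rpow, ← Real.log_le_log_iff
      (mul_pos (Real.rpow_pos_of_pos hK.volume_pos _) (Real.rpow_pos_of_pos hL.volume_pos _))
      hC.volume_pos,
    Real.log_mul (Real.rpow_pos_of_pos hK.volume_pos _).ne'
      (Real.rpow_pos_of_pos hL.volume_pos _).ne',
    Real.log_rpow hK.volume_pos, Real.log_rpow hL.volume_pos]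
  linarith

end

end Vale.Agent.P227.Zono
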